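import Vale.Agent.P154.AF.Fin
import Vale.Agent.P154.AF.D.S524288
import Vale.Agent.P154.AF.D.S521369
import Vale.Agent.P154.AF.D.S518127
import Vale.Agent.P154.AF.D.S514460
import Vale.Agent.P154.AF.D.S510338
import Vale.Agent.P154.AF.D.S506255
import Vale.Agent.P154.AF.D.S501652
import Vale.Agent.P154.AF.D.S500000
import Vale.Agent.P154.AF.D.S496518
import Vale.Agent.P154.AF.D.S493075
import Vale.Agent.P154.AF.D.S489182
import Vale.Agent.P154.AF.D.S485329
import Vale.Agent.P154.AF.D.S481516
import Vale.Agent.P154.AF.D.S477744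
import Vale.Agent.P154.AF.D.S473963
import Vale.Agent.P154.AF.D.S470225
import Vale.Agent.P154.AF.D.S466530
import Vale.Agent.P154.AF.D.S462875
import Vale.Agent.P154.AF.D.S462000
import Vale.Agent.P154.AF.D.S458234
import Vale.Agent.P154.AF.D.S454519
import Vale.Agent.P154.AF.D.S450812
import Vale.Agent.P154.AF.D.S447155
import Vale.Agent.P154.AF.D.S443507
import Vale.Agent.P154.AF.D.S439910
import Vale.Agent.P154.AF.D.S436325
import Vale.Agent.P154.AF.D.S432790
import Vale.Agent.P154.AF.D.S429269
import Vale.Agent.P154.AF.D.S425320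
import Vale.Agent.P154.AF.D.S421844
import Vale.Agent.P154.AF.D.S419430
import Vale.Agent.P154.AF.D.S412278
import Vale.Agent.P154.AF.D.S405243
import Vale.Agent.P154.AF.D.S398303
import Vale.Agent.P154.AF.D.S391467
import Vale.Agent.P154.AF.D.S384744
import Vale.Agent.P154.AF.D.S378116
import Vale.Agent.P154.AF.D.S371591
import Vale.Agent.P154.AF.D.S367001
import Vale.Agent.P154.AF.D.S358549
import Vale.Agent.P154.AF.D.S350268
import Vale.Agent.P154.AF.D.S341099
import Vale.Agent.P154.AF.D.S332157
import Vale.Agent.P154.AF.D.S323433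
import Vale.Agent.P154.AF.D.S314903

namespace Vale.Agent.P154.AF

theorem allP : CP (2 ^ 19) 314572 :=
  show CP 524288 314572 from ((cp_run 521369 S524288.big0 (by norm_num)).app
  ((cp_run 518127 S521369.big0 (by norm_num)).app
  ((cp_run 514460 S518127.big0 (by norm_num)).app
  ((cp_run 510338 S514460.big0 (by norm_num)).app
  ((cp_run 506255 S510338.big0 (by norm_num)).app
  ((cp_run 501652 S506255.big0 (by norm_num)).app
  ((cp_run 500000 S501652.big0 (by norm_num)).app
  ((cp_run 496518 S500000.big0 (by norm_num)).app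
  ((cp_run 493075 S496518.big0 (by norm_num)).app
  ((cp_run 489182 S493075.big0 (by norm_num)).app
  ((cp_run 485329 S489182.big0 (by norm_num)).app
  ((cp_run 481516 S485329.big0 (by norm_num)).app
  ((cp_run 477744 S481516.big0 (by norm_num)).app
  ((cp_run 473963 S477744.big0 (by norm_num)).app
  ((cp_run 470225 S473963.big0 (by norm_num)).app
  ((cp_run 466530 S470225.big0 (by norm_num)).app
  ((cp_run 462875 S466530.big0 (by norm_num)).app
  ((cp_run 462000 S462875.big0 (by norm_num)).app
  ((cp_run 458234 S462000.big0 (by norm_num)).app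
  ((cp_run 454519 S458234.big0 (by norm_num)).app
  ((cp_run 450812 S454519.big0 (by norm_num)).app
  ((cp_run 447155 S450812.big0 (by norm_num)).app
  ((cp_run 443507 S447155.big0 (by norm_num)).app
  ((cp_run 439910 S443507.big0 (by norm_num)).app
  ((cp_run 436325 S439910.big0 (by norm_num)).app
  ((cp_run 432790 S436325.big0 (by norm_num)).app
  ((cp_run 429269 S432790.big0 (by norm_num)).app
  ((cp_run 425320 S429269.big0 (by norm_num)).app
  ((cp_run 421844 S425320.big0 (by norm_num)).app
  ((cp_run 419430 S421844.big0 (by norm_num)).app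
  ((cp_run 412278 S419430.big0 (by norm_num)).app
  ((cp_run 405243 S412278.big0 (by norm_num)).app
  ((cp_run 398303 S405243.big0 (by norm_num)).app
  ((cp_run 391467 S398303.big0 (by norm_num)).app
  ((cp_run 384744 S391467.big0 (by norm_num)).app
  ((cp_run 378116 S384744.big0 (by norm_num)).app
  ((cp_run 371591 S378116.big0 (by norm_num)).app
  ((cp_run 367001 S371591.big0 (by norm_num)).app
  ((cp_run 358549 S367001.big0 (by norm_num)).app
  ((cp_run 350268 S358549.big0 (by norm_num)).app
  ((cp_run 341099 S350268.big0 (by norm_num)).app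
  ((cp_run 332157 S341099.big0 (by norm_num)).app
  ((cp_run 323433 S332157.big0 (by norm_num)).app
  ((cp_run 314903 S323433.big0 (by norm_num)).app
  (cp_run 314572 S314903.big0 (by norm_num))))))))))))))))))))))))))))))))))))))))))))))

theorem allR : ∀ d, 4 ≤ d → d ≤ 11 → CR d :=
  cr_all (cr_run S524288.big1 (by norm_num))
  (cr_run S470225.big1 (by norm_num))
  (cr_run S429269.big1 (by norm_num))
  (cr_run S398303.big1 (by norm_num))
  (cr_run S371591.big1 (by norm_num))
  (cr_run S350268.big1 (by norm_num))
  (cr_run S332157.big1 (by norm_num))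
  (cr_run S323433.big1 (by norm_num))

end Vale.Agent.P154.AF
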