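import Vale.Agent.P154.AF.Z40
import Vale.Agent.P154.AF.C4p

set_option linter.defProp false

namespace Vale.Agent.P154.AF

def c4A : LD where
  f := [212388442, 607494824, -553381000, 798568334, -378868544, -68971467]
  g := [198316409, 692631666, -465948169, -2324315984, -6058993812, -1131992181, 10405773297, 24246979438, 1450959160]
  φ := []
  ψ := []
  κ := 411049870
  cs := [-312385262621696, 37936351936129024, -2735308284348725760,
  -582929191190957568, 29905398803731110912, 88387949912772160512,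
  4878141833562439680, -113325645400501390848, -17765512314255304128,
  -18105214748169563904, -2642941458577837824, 247918020877763705088,
  620193205961464117248, 216914216434743785472, 72556988218119562752,
  7751161209980740608, -478586422978788535344, -2002669217825864407200,
  -126847131158958647292, -1802113399953800411328, -166859859511535352444,
  -40859883772632145584, -3357058388619708000, 401578119197122731552,
  74618199907041960216, 106900267719812538600, 58744946444084959608,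
  74505622007249670816, 28463646998073420936, 5401972949397865344,
  350379918268925760, -121897730516215311612, -369089622050678097120,
  -143184767534680441464, -7740863049768193485, -79489177524829703520,
  -11437716694691299176, -44676217539936898416, -4339283781873380283,
  -659568973470849828, -34277673041150472]
  Sp := 9172942848
  K := 8388608
  cc := 9172942848000
def c4AG : Mat := [
  [-34856212505822700408, 367250187540311173638, -1166624511194744286642, 1055599437990232174266,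
  -127926041959407717198, -296053680975468458400, 1738418357694219973272, -1695037467455163550008,
  -719812214008111128816, 880457018137555050792],
  [358235258572059830790, -3867132901241928818880, 12677126006380536908676, -12232936334379987874080,
  1439556088872989382966, 3083522362153961786640, -18622507177992553950528, 19812773441178402929712,
  7533644547562163353728, -10200467143618636216032],
  [-1132219512451958631858, 12677126006380536908676, -43522100372841857110800, 45775413621352036969164,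
  -5401222056449581092030, -9880411423702550643432, 62320891486857545385072, -74237952154688241873480,
  -24454746590445992851920, 37925384641063587679680],
  [1014799402723289968314, -12232936334379987874080, 45775413621352036969164, -55234995811677650028384,
  7141630123338251325210, 9037970692304071262976, -62232287525983690692768, 88420670011219595577120,
  23338753892916256626624, -45101808859032566910432],
  [-128911935696404908878, 1439556088872989382966, -5401222056449581092030, 7141630123338251325210,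
  -1961148524000434732764, -918393442026140836296, 6292174947489040653720, -9272856425812353865296,
  -2438300365077903034176, 5224273763494874410008],
  [-288043805042970358176, 3083522362153961786640, -9880411423702550643432, 9037970692304071262976,
  -918393442026140836296, -2533339936869622008984, 14980714484136848651520, -15257590543277749838376,
  -6044880176680679588592, 7841445776002023847920],
  [1681202723470122709656, -18622507177992553950528, 62320891486857545385072, -62232287525983690692768,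
  6292174947489040653720, 14980714484136848651520, -92187220164256732257792, 104969323973159418855168,
  36094132950623033516640, -53447267120797895021856],
  [-1603256328493252036920, 19812773441178402929712, -74237952154688241873480, 88420670011219595577120,
  -9272856425812353865296, -15257590543277749838376, 104969323973159418855168, -149299398577396458925848,
  -39030281735901226243056, 75736773059154868777392],
  [-699477427261870399728, 7533644547562163353728, -24454746590445992851920, 23338753892916256626624,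
  -2438300365077903034176, -6044880176680679588592, 36094132950623033516640, -39030281735901226243056,
  -14033496343108047478560, 19789336104263847522144],
  [831031205555020570920, -10200467143618636216032, 37925384641063587679680, -45101808859032566910432,
  5224273763494874410008, 7841445776002023847920, -53447267120797895021856, 75736773059154868777392,
  19789336104263847522144, -38727102997354469827104]]
def c4AH : Mat := [
  [12297358248365684736, 0, 0, 0,
  0, 0, 0, 0,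
  0, 0],
  [-189732062147966889984, 215445342560345653248, -507886549960809775104, -17082125773210386432,
  0, -140886579519581847552, 760785984740873207808, 0,
  -281502499582374838272, 0],
  [1994039739290221079040, -1144128978533804944896, 0, 0,
  0, 0, 0, 0,
  0, 0],
  [-7267011909306659951616, 322763899116344850432, 0, 0,
  0, 4573471079078969416704, 0, 0,
  0, 0],
  [10747193254417766703744, 18131235970458913705728, 1431418174656253020288, 0,
  0, -26456438752926445882368, 0, 0,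
  0, 0],
  [-5650460377777666967040, -50391835084852609720320, -5043905371963487678976, 0,
  0, 56973159983698718340096, 345976502844406090752, 0,
  0, 0],
  [-1282539551129035107840, 52851015758134589822208, 15477681934800812606400, 269365102858429996032,
  0, -55791499273471663868160, -14335282405619521573248, 0,
  4986632270251958908608, 0],
  [2128253897760820337664, -23308633165848319461888, -17994114602610505831296, -419155325304387287040,
  0, 24608124268795182094848, 22307133409519712419584, 0,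
  -8002747043427293949312, 0],
  [-492040349355844888704, 3324136258964540095488, 6636806415077737658688, 166872348219167677440,
  0, -3765930725655178253568, -9078613491485470144896, 0,
  3297617272757709878976, 0],
  [],
  []]
def c4Ag : Tr := (.N true 0 0 2 (.N false 0 4 0 (.N true 0 1 0 (.N false 1 9 0 (.L 0)
 (.L 0))
 (.N true 1 0 5 (.N false 1 9 0 (.L 0)
 (.L 0))
 (.L 0)))
 (.N false 3 1 0 (.L 0)
 (.L 0)))
 (.N true 3 1 0 (.N true 0 0 5 (.N false 3 1 0 (.L 0)
 (.N false 0 19 0 (.N false 1 9 0 (.L 0)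
 (.N true 0 1 0 (.L 0)
 (.L 0)))
 (.N true 0 1 0 (.L 0)
 (.L 0))))
 (.N false 0 4 0 (.N true 3 3 0 (.N false 1 9 0 (.L 0)
 (.L 0))
 (.N false 1 9 0 (.L 0)
 (.N true 3 0 1 (.L 0)
 (.L 0))))
 (.N false 3 1 0 (.N true 3 3 0 (.N true 0 0 11 (.N false 0 0 1 (.L 0)
 (.N false 3 3 0 (.N true 0 1 0 (.N false 0 0 3 (.L 0)
 (.L 0))
 (.N false 0 0 3 (.L 0)
 (.L 0)))
 (.L 0)))
 (.L 0))
 (.L 0))
 (.N true 3 3 0 (.L 0)
 (.N true 3 0 1 (.L 0)
 (.L 0))))))
 (.L 0)))
def c4Ah : Tr := (.N false 0 1 0 (.N false 0 2 0 (.N false 0 5 0 (.L 0)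
 (.N true 0 0 2 (.L 0)
 (.N false 0 0 1 (.N false 0 1 0 (.L 0)
 (.L 0))
 (.L 0))))
 (.N true 0 0 2 (.N true 1 1 2 (.N false 0 0 1 (.L 0)
 (.N false 0 0 3 (.L 0)
 (.N false 0 0 7 (.L 0)
 (.L 0))))
 (.N false 0 0 1 (.L 0)
 (.L 0)))
 (.N true 3 1 0 (.N false 0 0 1 (.L 0)
 (.N true 0 0 5 (.N true 0 1 0 (.N false 0 0 3 (.L 0)
 (.N true 1 1 2 (.N true 0 3 0 (.L 0)
 (.N false 0 0 7 (.L 0)
 (.L 0)))
 (.L 0)))
 (.N false 0 0 3 (.L 0)
 (.L 0)))
 (.L 0)))
 (.N false 0 0 1 (.L 0)
 (.N false 0 0 3 (.N true 3 0 1 (.N false 0 1 0 (.L 0)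
 (.L 0))
 (.L 0))
 (.L 0))))))
 (.N false 0 0 2 (.N true 0 0 2 (.N true 3 0 2 (.N false 0 1 0 (.N false 0 3 0 (.N true 0 1 0 (.N false 0 7 0 (.L 0)
 (.L 401938))
 (.N false 0 7 0 (.L 0)
 (.N false 0 0 1 (.N true 0 0 1 (.L 98773)
 (.L 0))
 (.N true 0 0 1 (.N true 1 0 0 (.N true 0 1 0 (.L 322192)
 (.L 94960))
 (.L 0))
 (.L 0)))))
 (.L 387038))
 (.L 0))
 (.N false 0 1 0 (.N false 0 3 0 (.N true 1 1 2 (.L 357087)
 (.L 0))
 (.L 1000000))
 (.L 0)))
 (.N true 1 0 2 (.N false 0 1 0 (.N true 3 11 0 (.N true 0 0 5 (.N false 0 3 0 (.N false 0 7 0 (.L 0)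
 (.N true 0 1 0 (.N false 0 0 1 (.L 0)
 (.L 0))
 (.N false 0 0 1 (.L 0)
 (.L 0))))
 (.L 0))
 (.N false 0 3 0 (.N true 3 23 0 (.N false 0 7 0 (.L 0)
 (.N true 0 0 11 (.N false 0 0 1 (.L 0)
 (.N true 0 1 0 (.N false 0 0 3 (.L 0)
 (.L 0))
 (.L 0)))
 (.L 0)))
 (.N true 1 1 0 (.N false 0 7 0 (.L 0)
 (.N false 0 0 1 (.L 0)
 (.L 0)))
 (.N false 0 7 0 (.L 0)
 (.L 0))))
 (.N true 3 23 0 (.N true 0 0 11 (.N false 0 0 1 (.N true 0 1 0 (.N true 1 3 0 (.N false 0 1 0 (.L 0)
 (.L 0))
 (.N false 0 1 0 (.L 0)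
 (.L 0)))
 (.N true 0 0 1 (.N false 0 1 0 (.L 0)
 (.L 0))
 (.L 0)))
 (.L 0))
 (.N false 0 0 1 (.L 0)
 (.L 0)))
 (.L 0))))
 (.N true 3 0 1 (.N false 0 3 0 (.N false 0 7 0 (.L 0)
 (.L 0))
 (.L 0))
 (.N false 0 3 0 (.N false 0 7 0 (.L 0)
 (.L 0))
 (.L 0))))
 (.N true 3 11 0 (.N true 0 0 5 (.L 0)
 (.N false 0 0 1 (.L 0)
 (.N false 0 0 3 (.N false 0 1 0 (.N false 0 3 0 (.L 0)
 (.L 0))
 (.L 0))
 (.L 0))))
 (.L 0)))
 (.N true 3 1 0 (.N true 0 0 11 (.N true 0 1 0 (.N false 0 1 0 (.N false 0 3 0 (.N false 0 7 0 (.N false 0 15 0 (.L 0)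
 (.L 0))
 (.L 0))
 (.L 0))
 (.L 0))
 (.N false 0 1 0 (.N false 0 3 0 (.N false 0 7 0 (.N false 0 15 0 (.L 0)
 (.L 0))
 (.L 0))
 (.L 0))
 (.L 0)))
 (.N false 0 1 0 (.N true 3 3 0 (.N false 0 3 0 (.N true 0 0 23 (.N false 0 7 0 (.L 0)
 (.L 0))
 (.L 0))
 (.N true 0 0 23 (.L 0)
 (.L 0)))
 (.N false 0 3 0 (.N true 3 0 1 (.N false 0 7 0 (.L 0)
 (.L 0))
 (.N false 0 7 0 (.N false 0 15 0 (.L 0)
 (.N true 3 0 3 (.L 0)
 (.L 0)))
 (.L 0)))
 (.L 0)))
 (.N false 0 0 1 (.N true 3 3 0 (.L 0)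
 (.L 0))
 (.N false 0 0 3 (.N false 0 1 0 (.N false 0 3 0 (.L 0)
 (.L 0))
 (.L 0))
 (.L 0)))))
 (.N false 0 1 0 (.N false 0 3 0 (.N false 0 7 0 (.N false 0 15 0 (.L 0)
 (.L 0))
 (.L 0))
 (.L 0))
 (.L 0)))))
 (.L 0)))
def c4A_ok : c4A.ok c4AG c4AH = true := by decide +kernel
def c4A_G_0 : (((leaves c4Ag (RB 2 1) R3 []).drop 0).take 12).all (leafOK s8 s8 c4AG []) = true := by
  decide +kernel
def c4A_G_1 : (((leaves c4Ag (RB 2 1) R3 []).drop 12).take 12).all (leafOK s8 s8 c4AG []) = true := by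
  decide +kernel
def c4A_G_2 : ((leaves c4Ag (RB 2 1) R3 []).drop 24).all (leafOK s8 s8 c4AG []) = true := by
  decide +kernel
theorem c4A_G : ((leaves c4Ag (RB 2 1) R3 []).drop 0).all (leafOK s8 s8 c4AG []) = true :=
  chunk _ _ 0 12 c4A_G_0
    (chunk _ _ 12 12 c4A_G_1
    (c4A_G_2))
def c4A_H_0 : (((leaves c4Ah (rZ 3) R3 []).drop 0).take 25).all (leafOK (sZ 10) s8 c4AH (mkCon 3 c4A.cc 0 1)) = true := by
  decide +kernel
def c4A_H_1 : (((leaves c4Ah (rZ 3) R3 []).drop 25).take 25).all (leafOK (sZ 10) s8 c4AH (mkCon 3 c4A.cc 0 1)) = true := by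
  decide +kernel
def c4A_H_2 : (((leaves c4Ah (rZ 3) R3 []).drop 50).take 25).all (leafOK (sZ 10) s8 c4AH (mkCon 3 c4A.cc 0 1)) = true := by
  decide +kernel
def c4A_H_3 : (((leaves c4Ah (rZ 3) R3 []).drop 75).take 25).all (leafOK (sZ 10) s8 c4AH (mkCon 3 c4A.cc 0 1)) = true := by
  decide +kernel
def c4A_H_4 : ((leaves c4Ah (rZ 3) R3 []).drop 100).all (leafOK (sZ 10) s8 c4AH (mkCon 3 c4A.cc 0 1)) = true := by
  decide +kernel
theorem c4A_H : ((leaves c4Ah (rZ 3) R3 []).drop 0).all (leafOK (sZ 10) s8 c4AH (mkCon 3 c4A.cc 0 1)) = true :=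
  chunk _ _ 0 25 c4A_H_0
    (chunk _ _ 25 25 c4A_H_1
    (chunk _ _ 50 25 c4A_H_2
    (chunk _ _ 75 25 c4A_H_3
    (c4A_H_4))))
theorem c4A_low : Low (2 / 5) (pol c4A.f) (pol c4A.g) (pol c4A.φ) (pol c4A.ψ) c4A.κ :=
  c4A.low c4A_ok (by norm_num) (by norm_num) c4A_G c4A_H

def c4B : LD where
  f := [472144234, -200256321, -58987213, 103438049, -120863844, -56593987]
  g := [465150647, -187111222, -2070335, 444466348, 1163022809, -421332957, -7864587155, -21087807403, -1756650132]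
  φ := []
  ψ := []
  κ := 978492544
  cs := [-6949783794592768, 419525483733743616, -10276218893930517504,
  -3307642630450172928, 113211654612238144512, 219681172300586978304,
  11116612081768716288, -458308504976677392384, -37472054900671950912,
  -31552328650035435264, -365126501552272128, 1255198214556772717824,
  2423695757133336053760, 391860599473455487488, 87398706370028875776,
  -10145895427282738176, -3594900520290691088208, -10749548784078172003680,
  -213802173316406230884, -6440302201371688238400, -255907919804620505796,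
  -31690974490672315824, 7790881216530498912, 3558356719374038537952,
  443193209064301652136, 562354865232948339480, 88699595836490253576,
  235889127707444580960, 36779715528606421560, 2220645146750030016,
  -1045957169208573504, -1356954100157191813668, -3470042964304369287072,
  -855441165998112038280, -10666634166243977139, -392603368907893700160,
  -15235046177919586128, -122877964065788198928, -4679804491216508133,
  -55674773098645860, 111435412884506568]
  Sp := 82556485632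
  K := 75497472
  cc := 82556485632000
def c4BG : Mat := [
  [-312730060597858374984, 3082361513635904386842, -9931417207140007702206, 10144187673589874684646,
  -189492891002675124354, -1999842921473521484592, 12016749178639554561288, -16181731784875742273880,
  -3277036128966551366832, 6645741768290393834616],
  [3148108227202746840858, -31022673133361228222976, 100424937169783753541532, -103346140612979304012960,
  2045266025087244268170, 20097677555706189730320, -121347596103149555970048, 164909512453097349370224,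
  32971613111145046938816, -67823465922322930166112],
  [-10190345864448801402558, 100424937169783753541532, -327288324643921774854000, 340629030842661030976596,
  -7317865897891015502610, -64792828359890708110488, 394001128432439697385872, -543156920462877835099320,
  -106282751895908815579632, 223706782979601318095616],
  [10469388155379994850022, -103346140612979304012960, 340629030842661030976596, -361506409753242994196832,
  9132206311795449946662, 66062222866544045313312, -406685228884380760086432, 574659653376896294613120,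
  108391439408645565850752, -237489214732951125828960],
  [-178750456826163353730, 2045266025087244268170, -7317865897891015502610, 9132206311795449946662,
  -2472583659843131066052, -1395520582069467317160, 9097900936358036555592, -12155230018162645127136,
  -3936697341062553966816, 7264227264339917589768],
  [-2055080552703459853104, 20097677555706189730320, -64792828359890708110488, 66062222866544045313312,
  -1395520582069467317160, -13145310320063612050728, 78928715344182746094720, -105544706840081592022296,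
  -21734757836887991087952, 43486204145207025562704],
  [12429554419580230026504, -121347596103149555970048, 394001128432439697385872, -406685228884380760086432,
  9097900936358036555592, 78928715344182746094720, -477438564250606679124480, 649003862760606448525440,
  130031469976384835590176, -267306110828264707910496],
  [-16907386520934523543896, 164909512453097349370224, -543156920462877835099320, 574659653376896294613120,
  -12155230018162645127136, -105544706840081592022296, 649003862760606448525440, -916703241389460160587432,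
  -170862578941348360493136, 375625758013213416224400],
  [-3413845642958970907824, 32971613111145046938816, -106282751895908815579632, 108391439408645565850752,
  -3936697341062553966816, -21734757836887991087952, 130031469976384835590176, -170862578941348360493136,
  -36924823058447348047584, 71457993678938134675104],
  [7032616272485094442104, -67823465922322930166112, 223706782979601318095616, -237489214732951125828960,
  7264227264339917589768, 43486204145207025562704, -267306110828264707910496, 375625758013213416224400,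
  71457993678938134675104, -155311169174765538943968]]
def c4BH : Mat := [
  [273585188857938905088, 0, 0, 0,
  0, 0, 0, 0,
  0, 0],
  [-1964236867439036092416, 740200303054144143360, -956470213821396418560, -126149418214823559168,
  0, -584858850262933045248, 1847017269263421407232, 0,
  -808225630249757442048, 0],
  [7491363573675347260416, -2668820618478995131392, 0, 0,
  0, 0, 0, 0,
  0, 0],
  [-27510432070773869116416, 29148771343278971621376, 0, 0,
  0, -7041012744244698620928, 0, 0,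
  0, 0],
  [77911842043566018794880, -133364152133398293721344, 8897138093059646196096, 0,
  0, 47087526436035841492992, 0, 0,
  0, 0],
  [-139038876113887489522176, 309691503915384724844544, -63544034587024913425920, 0,
  0, -127643819590679940375552, 25466131553867029232640, 0,
  0, 0],
  [146397855697926394369536, -399506207342822262383616, 165186291763629130266432, 2112263370125653920768,
  0, 185849198378505091934208, -127210980539131531710336, 0,
  22123087643455760308032, 0],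
  [-83161495755427391926272, 268482176346183628796928, -168633740641672330109568, -3341480812747542927360,
  0, -137817968056049704292352, 165094445531818025872128, 0,
  -38588595875163218521728, 0],
  [19600394303502087327360, -72523471813201918169856, 59050815585829863491520, 1355366860836712565760,
  0, 40150934426696342906880, -65196613815816944801664, 0,
  17273733861957215655744, 0],
  [],
  []]
def c4Bg : Tr := (.N true 0 0 2 (.N false 0 4 0 (.N true 1 1 2 (.N true 0 1 0 (.N false 1 9 0 (.N true 1 3 0 (.L 0)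
 (.L 0))
 (.N true 1 3 0 (.L 0)
 (.L 0)))
 (.N false 1 9 0 (.L 0)
 (.N true 3 1 0 (.N false 3 0 0 (.L 0)
 (.N true 0 0 1 (.L 0)
 (.L 0)))
 (.L 0))))
 (.N false 1 9 0 (.L 0)
 (.N true 0 0 1 (.L 0)
 (.L 0))))
 (.N false 3 1 0 (.N true 1 1 2 (.N false 3 3 0 (.L 0)
 (.L 0))
 (.L 0))
 (.N true 1 1 2 (.N true 0 1 0 (.L 0)
 (.N true 3 1 0 (.L 0)
 (.L 0)))
 (.L 0))))
 (.N true 3 1 0 (.N false 0 4 0 (.L 0)
 (.L 0))
 (.N false 0 4 0 (.N true 3 0 1 (.N true 3 1 0 (.L 0)
 (.L 0))
 (.L 0))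
 (.N false 3 1 0 (.N true 3 0 1 (.N false 3 3 0 (.N true 3 1 0 (.N false 0 0 1 (.L 0)
 (.L 0))
 (.L 0))
 (.N true 3 1 0 (.L 0)
 (.L 0)))
 (.L 0))
 (.N true 3 0 1 (.N true 3 1 0 (.L 0)
 (.L 0))
 (.L 0))))))
def c4Bh : Tr := (.N false 0 1 0 (.N false 0 2 0 (.L 0)
 (.N false 0 0 1 (.N true 0 0 2 (.N false 0 1 0 (.L 0)
 (.N true 0 1 0 (.L 0)
 (.L 0)))
 (.N true 3 1 0 (.N false 0 1 0 (.L 0)
 (.L 0))
 (.N false 0 1 0 (.L 0)
 (.N true 3 0 1 (.N false 0 0 1 (.L 0)
 (.N true 3 1 0 (.L 0)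
 (.L 0)))
 (.L 0)))))
 (.N true 0 0 2 (.N false 0 0 3 (.L 0)
 (.N false 0 0 7 (.L 0)
 (.N true 0 1 0 (.L 0)
 (.L 0))))
 (.N true 3 1 0 (.N false 0 0 3 (.L 0)
 (.L 0))
 (.N true 3 0 1 (.L 0)
 (.L 0))))))
 (.N true 3 1 0 (.N true 0 0 2 (.N false 0 0 2 (.N false 0 1 0 (.N false 0 3 0 (.N true 1 3 2 (.N true 0 1 0 (.N false 0 7 0 (.L 0)
 (.L 0))
 (.N false 0 7 0 (.N true 0 0 1 (.N false 0 15 0 (.L 0)
 (.L 0))
 (.N false 0 15 0 (.L 0)
 (.L 0)))
 (.L 0)))
 (.N true 1 0 5 (.N false 0 7 0 (.N true 1 1 0 (.N false 0 15 0 (.L 0)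
 (.L 0))
 (.N false 0 15 0 (.L 0)
 (.L 0)))
 (.L 0))
 (.N true 3 1 2 (.N false 0 7 0 (.N false 0 15 0 (.L 0)
 (.L 0))
 (.L 0))
 (.N true 1 0 11 (.N false 0 7 0 (.L 0)
 (.N false 0 0 1 (.N true 1 1 0 (.L 0)
 (.N true 3 3 0 (.L 0)
 (.L 0)))
 (.L 0)))
 (.N true 3 0 5 (.N false 0 7 0 (.L 0)
 (.N false 0 0 1 (.N true 0 0 3 (.L 0)
 (.L 0))
 (.L 0)))
 (.N false 0 7 0 (.L 0)
 (.N true 3 0 11 (.N false 0 0 1 (.L 0)
 (.L 0))
 (.N false 0 0 1 (.L 0)
 (.L 0)))))))))
 (.N true 1 3 2 (.L 0)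
 (.N true 3 1 2 (.L 0)
 (.N true 1 0 5 (.L 0)
 (.N false 0 0 1 (.N true 3 0 5 (.L 0)
 (.N true 1 0 11 (.L 0)
 (.N true 3 0 11 (.L 0)
 (.L 0))))
 (.L 0))))))
 (.L 0))
 (.L 0))
 (.N false 0 0 2 (.N false 0 1 0 (.N false 0 3 0 (.N true 1 1 2 (.N false 0 7 0 (.L 0)
 (.L 0))
 (.N true 1 0 5 (.N false 0 7 0 (.L 0)
 (.N false 0 0 1 (.L 0)
 (.L 0)))
 (.N false 0 7 0 (.N true 3 3 0 (.L 0)
 (.L 0))
 (.N true 3 3 0 (.N false 0 0 1 (.L 0)
 (.L 0))
 (.N true 1 0 11 (.N false 0 0 1 (.L 0)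
 (.N true 3 11 0 (.N true 1 3 0 (.L 0)
 (.L 0))
 (.N true 0 3 0 (.L 0)
 (.L 0))))
 (.N true 0 0 11 (.L 0)
 (.L 0)))))))
 (.N true 1 1 2 (.L 0)
 (.N true 1 0 5 (.L 0)
 (.N true 3 3 0 (.L 0)
 (.N true 3 0 1 (.N true 1 0 2 (.L 0)
 (.N false 0 0 1 (.N true 1 0 5 (.L 0)
 (.L 0))
 (.L 0)))
 (.N false 0 0 1 (.N true 1 0 11 (.N true 0 0 2 (.L 0)
 (.N false 0 1 0 (.L 0)
 (.L 0)))
 (.N true 3 0 3 (.N false 0 1 0 (.L 0)
 (.L 0))
 (.N false 0 1 0 (.L 0)
 (.L 0))))
 (.L 0)))))))
 (.L 0))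
 (.N true 3 3 0 (.N true 0 0 5 (.L 0)
 (.N false 0 0 5 (.L 0)
 (.N true 3 7 0 (.N true 0 0 11 (.L 7000000)
 (.N false 0 0 11 (.L 0)
 (.N true 3 15 0 (.N true 0 0 23 (.N false 0 0 23 (.L 162825481)
 (.L 236000000))
 (.N false 0 0 23 (.N true 3 31 0 (.L 0)
 (.N false 0 1 0 (.L 0)
 (.N true 3 0 1 (.N false 0 0 1 (.L 0)
 (.N false 0 0 3 (.L 0)
 (.N true 3 1 0 (.L 0)
 (.L 210818600))))
 (.N false 0 0 1 (.L 78000000)
 (.L 205974220)))))
 (.N true 3 31 0 (.N false 0 0 47 (.N false 0 1 0 (.L 204764240)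
 (.L 284291866))
 (.L 392567346))
 (.N true 3 0 1 (.N false 0 0 47 (.N false 0 1 0 (.N true 3 1 0 (.N false 0 3 0 (.N false 0 7 0 (.L 56000000)
 (.L 234752294))
 (.L 255424689))
 (.N false 0 3 0 (.N false 0 7 0 (.N true 3 0 1 (.N true 0 15 2 (.L 224000000)
 (.N true 0 0 5 (.L 224000000)
 (.N true 3 1 0 (.N false 0 15 0 (.L 4000000)
 (.N true 3 3 0 (.L 228275060)
 (.N false 0 0 1 (.L 226866463)
 (.N false 0 0 3 (.L 228995459)
 (.L 230822422)))))
 (.N false 0 15 0 (.L 221989399)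
 (.L 230445738)))))
 (.L 224000000))
 (.N true 0 15 2 (.L 217000000)
 (.N true 0 0 5 (.L 217000000)
 (.N true 3 0 1 (.N true 3 1 0 (.L 234425997)
 (.L 235000000))
 (.L 230000000)))))
 (.L 246000000)))
 (.L 266000000))
 (.L 305000000))
 (.L 283000000)))))
 (.N false 0 0 23 (.L 162825481)
 (.L 236000000)))))
 (.L 7000000))))
 (.L 0))))
 (.N true 0 3 2 (.N true 3 0 11 (.N true 3 1 0 (.N true 1 31 0 (.N false 0 0 2 (.N false 0 1 0 (.N false 0 3 0 (.N false 0 7 0 (.L 0)
 (.L 0))
 (.L 0))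
 (.L 0))
 (.L 0))
 (.N false 0 0 2 (.N false 0 1 0 (.N false 0 3 0 (.N false 0 7 0 (.L 0)
 (.L 0))
 (.L 0))
 (.L 0))
 (.L 0)))
 (.N false 0 0 2 (.N false 0 1 0 (.N false 0 3 0 (.N false 0 7 0 (.N true 1 15 0 (.L 0)
 (.N true 1 0 1 (.L 0)
 (.L 0)))
 (.L 0))
 (.L 0))
 (.L 0))
 (.L 0)))
 (.N true 1 1 2 (.N true 3 0 3 (.N false 0 0 2 (.N false 0 1 0 (.N false 0 3 0 (.N true 0 15 0 (.N false 0 7 0 (.L 0)
 (.L 0))
 (.N false 0 7 0 (.N true 0 0 1 (.L 0)
 (.L 0))
 (.L 0)))
 (.L 0))
 (.L 0))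
 (.L 0))
 (.N true 0 31 0 (.N false 0 0 2 (.N false 0 1 0 (.N false 0 3 0 (.L 0)
 (.L 0))
 (.L 0))
 (.L 0))
 (.N false 0 0 2 (.N false 0 1 0 (.N false 0 3 0 (.N false 0 7 0 (.L 0)
 (.L 0))
 (.L 0))
 (.L 0))
 (.L 0))))
 (.N true 1 0 5 (.N false 0 0 2 (.N false 0 1 0 (.N false 0 3 0 (.N false 0 7 0 (.L 0)
 (.L 0))
 (.L 0))
 (.L 0))
 (.L 0))
 (.N false 0 0 2 (.N false 0 1 0 (.N false 0 3 0 (.N true 1 0 11 (.N false 0 7 0 (.L 0)
 (.N false 0 0 1 (.N true 3 0 0 (.L 0)
 (.N true 1 1 0 (.L 0)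
 (.N true 1 0 1 (.N true 0 0 0 (.N false 0 1 0 (.L 0)
 (.L 0))
 (.N false 0 1 0 (.L 0)
 (.L 0)))
 (.N true 3 0 1 (.N false 0 1 0 (.L 0)
 (.L 0))
 (.L 0)))))
 (.N true 3 0 0 (.L 0)
 (.N true 1 1 0 (.L 0)
 (.N false 0 0 3 (.N true 1 0 1 (.L 0)
 (.N true 3 0 1 (.L 0)
 (.L 0)))
 (.L 0))))))
 (.N true 3 0 23 (.N false 0 7 0 (.L 0)
 (.N true 0 0 0 (.N false 0 0 1 (.N true 0 1 0 (.L 0)
 (.N true 3 0 0 (.N false 0 1 0 (.L 0)
 (.L 0))
 (.L 0)))
 (.N false 0 0 3 (.N true 0 1 0 (.L 0)
 (.N true 3 0 0 (.L 0)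
 (.L 0)))
 (.L 0)))
 (.N false 0 0 1 (.N true 3 1 0 (.L 0)
 (.N true 1 0 0 (.N false 0 1 0 (.L 0)
 (.L 0))
 (.N false 0 1 0 (.L 0)
 (.N true 3 0 1 (.L 0)
 (.L 0)))))
 (.N true 3 1 0 (.L 0)
 (.N true 1 0 0 (.L 0)
 (.N false 0 0 3 (.N true 3 0 1 (.L 0)
 (.L 0))
 (.L 0)))))))
 (.N false 0 7 0 (.L 0)
 (.N false 0 0 1 (.L 0)
 (.N true 1 0 23 (.L 0)
 (.N true 3 0 47 (.L 0)
 (.L 0)))))))
 (.N false 0 0 1 (.N true 1 0 11 (.L 0)
 (.N true 3 0 23 (.L 0)
 (.N false 0 1 0 (.N true 1 0 23 (.L 0)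
 (.N true 3 0 47 (.L 0)
 (.L 0)))
 (.N true 1 0 23 (.L 0)
 (.N true 3 0 47 (.L 0)
 (.L 0))))))
 (.N false 0 0 3 (.N true 1 0 11 (.L 0)
 (.N true 3 0 23 (.L 0)
 (.N false 0 1 0 (.L 0)
 (.L 0))))
 (.L 0))))
 (.L 0))
 (.L 0)))))
 (.N false 0 0 2 (.N false 0 1 0 (.N false 0 3 0 (.N true 1 0 11 (.N false 0 7 0 (.N true 0 0 5 (.N true 3 0 0 (.N false 0 15 0 (.L 0)
 (.L 0))
 (.N false 0 15 0 (.L 0)
 (.L 0)))
 (.N true 1 0 0 (.N true 0 0 11 (.L 0)
 (.N true 3 23 0 (.L 0)
 (.L 0)))
 (.N true 0 0 23 (.L 0)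
 (.L 0))))
 (.N true 0 0 5 (.L 0)
 (.N true 3 11 0 (.N true 0 0 11 (.N false 0 0 1 (.N true 1 1 0 (.N true 0 1 0 (.N false 0 1 0 (.L 0)
 (.L 0))
 (.N false 0 1 0 (.L 0)
 (.L 0)))
 (.N false 0 1 0 (.L 0)
 (.L 0)))
 (.L 0))
 (.N false 0 0 1 (.L 0)
 (.L 0)))
 (.N false 0 0 1 (.N true 3 0 1 (.N true 0 1 0 (.N false 0 1 0 (.L 0)
 (.L 0))
 (.N false 0 1 0 (.L 0)
 (.L 0)))
 (.N true 0 3 0 (.L 0)
 (.N false 0 1 0 (.L 0)
 (.L 0))))
 (.L 0)))))
 (.N true 1 0 23 (.N false 0 7 0 (.L 0)
 (.N true 3 23 0 (.N true 0 0 11 (.N true 1 3 0 (.N true 0 1 0 (.N false 0 0 1 (.N true 1 7 0 (.N true 0 3 0 (.L 0)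
 (.N false 0 1 0 (.L 0)
 (.L 0)))
 (.N true 1 0 1 (.N false 0 1 0 (.L 0)
 (.L 0))
 (.N false 0 1 0 (.L 0)
 (.L 0))))
 (.L 0))
 (.N false 0 0 1 (.N false 0 1 0 (.L 0)
 (.L 0))
 (.L 0)))
 (.N true 1 0 1 (.N false 0 0 1 (.L 0)
 (.L 0))
 (.N false 0 0 1 (.L 0)
 (.L 0))))
 (.N false 0 0 1 (.L 0)
 (.L 0)))
 (.N false 0 0 1 (.N true 0 3 0 (.N true 1 1 0 (.N true 0 7 0 (.L 0)
 (.N false 0 1 0 (.L 0)
 (.L 0)))
 (.N false 0 1 0 (.L 0)
 (.N true 1 0 1 (.L 0)
 (.L 0))))
 (.L 0))
 (.N true 0 3 0 (.N true 1 1 0 (.L 0)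
 (.N false 0 0 3 (.N true 1 0 1 (.L 0)
 (.L 0))
 (.L 0)))
 (.L 0)))))
 (.N false 0 7 0 (.L 0)
 (.N false 0 0 1 (.L 0)
 (.N true 1 0 47 (.L 0)
 (.L 0))))))
 (.N true 3 0 1 (.N true 1 0 2 (.N true 0 0 5 (.L 0)
 (.N false 0 0 1 (.N true 0 0 11 (.L 0)
 (.N true 3 11 0 (.L 0)
 (.L 0)))
 (.L 0)))
 (.N true 1 0 5 (.N true 0 0 11 (.L 0)
 (.N false 0 0 1 (.L 0)
 (.L 0)))
 (.N false 0 0 1 (.L 0)
 (.L 0))))
 (.N true 1 0 11 (.N true 0 0 2 (.L 0)
 (.N true 3 5 0 (.N true 0 0 5 (.L 0)
 (.N false 0 0 1 (.L 0)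
 (.L 0)))
 (.L 0)))
 (.N true 1 0 23 (.N true 0 0 5 (.L 0)
 (.N false 0 0 1 (.L 0)
 (.L 0)))
 (.N false 0 0 1 (.N true 1 0 47 (.N true 0 0 11 (.L 0)
 (.L 0))
 (.L 0))
 (.N false 0 0 3 (.N false 0 1 0 (.L 0)
 (.L 0))
 (.L 0)))))))
 (.L 0))
 (.L 0)))))
def c4B_ok : c4B.ok c4BG c4BH = true := by decide +kernel
def c4B_G_0 : (((leaves c4Bg (RB 2 1) R3 []).drop 0).take 12).all (leafOK s8 s8 c4BG []) = true := by
  decide +kernel
def c4B_G_1 : (((leaves c4Bg (RB 2 1) R3 []).drop 12).take 12).all (leafOK s8 s8 c4BG []) = true := by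
  decide +kernel
def c4B_G_2 : ((leaves c4Bg (RB 2 1) R3 []).drop 24).all (leafOK s8 s8 c4BG []) = true := by
  decide +kernel
theorem c4B_G : ((leaves c4Bg (RB 2 1) R3 []).drop 0).all (leafOK s8 s8 c4BG []) = true :=
  chunk _ _ 0 12 c4B_G_0
    (chunk _ _ 12 12 c4B_G_1
    (c4B_G_2))
def c4B_H_0 : (((leaves c4Bh (rZ 3) R3 []).drop 0).take 25).all (leafOK (sZ 10) s8 c4BH (mkCon 3 c4B.cc 0 1)) = true := by
  decide +kernel
def c4B_H_1 : (((leaves c4Bh (rZ 3) R3 []).drop 25).take 25).all (leafOK (sZ 10) s8 c4BH (mkCon 3 c4B.cc 0 1)) = true := by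
  decide +kernel
def c4B_H_2 : (((leaves c4Bh (rZ 3) R3 []).drop 50).take 25).all (leafOK (sZ 10) s8 c4BH (mkCon 3 c4B.cc 0 1)) = true := by
  decide +kernel
def c4B_H_3 : (((leaves c4Bh (rZ 3) R3 []).drop 75).take 25).all (leafOK (sZ 10) s8 c4BH (mkCon 3 c4B.cc 0 1)) = true := by
  decide +kernel
def c4B_H_4 : (((leaves c4Bh (rZ 3) R3 []).drop 100).take 25).all (leafOK (sZ 10) s8 c4BH (mkCon 3 c4B.cc 0 1)) = true := by
  decide +kernel
def c4B_H_5 : (((leaves c4Bh (rZ 3) R3 []).drop 125).take 25).all (leafOK (sZ 10) s8 c4BH (mkCon 3 c4B.cc 0 1)) = true := by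
  decide +kernel
def c4B_H_6 : (((leaves c4Bh (rZ 3) R3 []).drop 150).take 25).all (leafOK (sZ 10) s8 c4BH (mkCon 3 c4B.cc 0 1)) = true := by
  decide +kernel
def c4B_H_7 : (((leaves c4Bh (rZ 3) R3 []).drop 175).take 25).all (leafOK (sZ 10) s8 c4BH (mkCon 3 c4B.cc 0 1)) = true := by
  decide +kernel
def c4B_H_8 : (((leaves c4Bh (rZ 3) R3 []).drop 200).take 25).all (leafOK (sZ 10) s8 c4BH (mkCon 3 c4B.cc 0 1)) = true := by
  decide +kernel
def c4B_H_9 : (((leaves c4Bh (rZ 3) R3 []).drop 225).take 25).all (leafOK (sZ 10) s8 c4BH (mkCon 3 c4B.cc 0 1)) = true := by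
  decide +kernel
def c4B_H_10 : (((leaves c4Bh (rZ 3) R3 []).drop 250).take 25).all (leafOK (sZ 10) s8 c4BH (mkCon 3 c4B.cc 0 1)) = true := by
  decide +kernel
def c4B_H_11 : (((leaves c4Bh (rZ 3) R3 []).drop 275).take 25).all (leafOK (sZ 10) s8 c4BH (mkCon 3 c4B.cc 0 1)) = true := by
  decide +kernel
def c4B_H_12 : ((leaves c4Bh (rZ 3) R3 []).drop 300).all (leafOK (sZ 10) s8 c4BH (mkCon 3 c4B.cc 0 1)) = true := by
  decide +kernel
theorem c4B_H : ((leaves c4Bh (rZ 3) R3 []).drop 0).all (leafOK (sZ 10) s8 c4BH (mkCon 3 c4B.cc 0 1)) = true :=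
  chunk _ _ 0 25 c4B_H_0
    (chunk _ _ 25 25 c4B_H_1
    (chunk _ _ 50 25 c4B_H_2
    (chunk _ _ 75 25 c4B_H_3
    (chunk _ _ 100 25 c4B_H_4
    (chunk _ _ 125 25 c4B_H_5
    (chunk _ _ 150 25 c4B_H_6
    (chunk _ _ 175 25 c4B_H_7
    (chunk _ _ 200 25 c4B_H_8
    (chunk _ _ 225 25 c4B_H_9
    (chunk _ _ 250 25 c4B_H_10
    (chunk _ _ 275 25 c4B_H_11
    (c4B_H_12))))))))))))
theorem c4B_low : Low (2 / 5) (pol c4B.f) (pol c4B.g) (pol c4B.φ) (pol c4B.ψ) c4B.κ :=
  c4B.low c4B_ok (by norm_num) (by norm_num) c4B_G c4B_H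

def c4 : CD := ⟨c4P, c4A, c4B, 185841823, 145939678⟩
def c4C1 : ((leaves (.N true 0 0 2 (.L 0)
 (.N true 3 1 0 (.L 0)
 (.L 0))) (rL 20 7 8) R3 []).drop 0).all
    (leafOK (sZ 6) s8 (mkC c4.P.g [] c4.P.f 0) []) = true := by
  decide +kernel
def c4C2 : ((leaves (.N true 0 0 2 (.L 0)
 (.L 0)) (rL 20 7 8) R3 []).drop 0).all
    (leafOK (sZ 6) s8 (mkC c4.A.g c4.B.g c4.B.f c4.g1) []) = true := by
  decide +kernel
def c4C3 : ((leaves (.N true 3 1 0 (.N true 0 0 2 (.N true 1 3 2 (.L 0)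
 (.L 0))
 (.N true 3 3 0 (.L 0)
 (.L 0)))
 (.N true 1 1 2 (.L 0)
 (.L 0))) (rL 20 7 8) R3 []).drop 0).all
    (leafOK (sZ 6) s8 (mkC c4.P.ψ c4.B.g c4.B.f c4.g2) []) = true := by
  decide +kernel
theorem c4_cert : Nonempty (CertS (7 / 20) (2 / 5) (27 / 100) (1 / 2) (1 / 3) (1 / 4)) :=
  c4.cert (m0 := 14200) (m1 := 10000) (k0 := 8200) (by norm_num) (by norm_num) (by norm_num)
    (by decide) (by decide) z40a_low z40b_low c4P_low c4A_low c4B_low
    (chan_of (by norm_num) (by norm_num) (by norm_num) (by norm_num) c4C1)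
    (chan_of (by norm_num) (by norm_num) (by norm_num) (by norm_num) c4C2)
    (chan_of (by norm_num) (by norm_num) (by norm_num) (by norm_num) c4C3)
    (by norm_num [c4, c4A, c4B]) (by norm_num [c4, c4A, c4B])

end Vale.Agent.P154.AF
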