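import Vale.Agent.P154.AF.Gl

set_option linter.defProp false

namespace Vale.Agent.P154.AF

def c5P : LD where
  f := [-1000000000, 0, -2250796, -950235, -976219, 1259479]
  g := [-1000000000, 0, -6483883, 7601937, -15609011, 20146341, -454, -750324, 374925]
  φ := [282493769, 968092414, -580021013, -65620350, -11407393, 61167865]
  ψ := [198979527, 984958973, -832728096, -1089211901, -5838298938, 3044402859, 1866109065, 16542599149, -7545166775]
  κ := 0
  cs := [-2729815934517248, 140323658200510464, -1528687301206464000,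
  -1300501713607801344, 2566002835401020928, 17042772948667276032,
  5791080248747327232, 3433155494124162816, -235650877629059520,
  -1093388066452465344, -1698188866682068224, -21606881996273528448,
  -42385954156763249664, -6446278754297815104, 207433249997907744,
  2705191406380575360, 56420421796050470352, 196208754745312175904,
  5612887209921168708, 139657322596252759488, 6879535011551435364,
  890560832782584888, -635775673550153184, -48046178462462881056,
  -7304833751241936168, -9897338723675973840, -2565147528463777488,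
  -5449902178543208928, -1185677660422951560, -161136550444704408,
  36806238104937120, 14418666363007926036, 40371057399507455520,
  12614065310314477368, 301844880618826959, 6383957336993796120,
  444021981544806498, 2776698436546866672, 162324898082193285,
  19027062822263238, -2241468667901016]
  Sp := 41278242816
  K := 37748736
  cc := 41278242816000
def c5PG : Mat := [
  [-2147124559142213280, -7998651134546577354, 75327757562166392826, -91768375901058118038,
  5060460893321483262, 14208811451407641708, -105469155212733293328, 163161654267157499988,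
  33370151595243980328, -76609457193276746640],
  [21591771446982703158, 104154175505452119840, -856612059833420615196, 1022168087204089215888,
  -56311910409161530890, -167402802413625466176, 1174780950065985381984, -1795500555804113291424,
  -365311039932525989808, 836512268804205770736],
  [-72835697570301069318, -411917604004943760924, 3131484107463954895392, -3674215800166910595444,
  208908767043233390502, 626509616953383053856, -4222132963642711606176, 6363443279210517928224,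
  1304067618851707772352, -2947018921397265714192],
  [88060372127475945066, 482649323177041116048, -3674215800166910595444, 4262913778336970047200,
  -273396029336345912166, -739319914621648256256, 4897822139205444476064, -7229410145224281135648,
  -1538321203663641306864, 3346323456508059546864],
  [-18011146697112103938, 12899473196541944310, 208908767043233390502, -273396029336345912166,
  74923165706415306084, 36095384463511274964, -244817276760317248848, 357335809368312378924,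
  96427163847205998072, -205678006512974998272],
  [-15181064068142748564, -79167861955895287104, 626509616953383053856, -739319914621648256256,
  36095384463511274964, 120613659574157112168, -836402999221527741216, 1283962407872466136248,
  247920984548471088576, -587872759496740179552],
  [93831052469905284336, 576608665447851124320, -4222132963642711606176, 4897822139205444476064,
  -244817276760317248848, -836402999221527741216, 5559037887865720063104, -8406571814747313287904,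
  -1644514708891367198592, 3828189916240349071104],
  [-134634838871517081516, -902152368298590390432, 6363443279210517928224, -7229410145224281135648,
  357335809368312378924, 1283962407872466136248, -8406571814747313287904, 12261395592086595953832,
  2576345072045617406016, -5554082298783893036832],
  [-34985420601214908888, -160116980257596133296, 1304067618851707772352, -1538321203663641306864,
  96427163847205998072, 247920984548471088576, -1644514708891367198592, 2576345072045617406016,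
  459209068117702460064, -1172865593951012333664],
  [75141742037043172464, 381279319150754461680, -2947018921397265714192, 3346323456508059546864,
  -205678006512974998272, -587872759496740179552, 3828189916240349071104, -5554082298783893036832,
  -1172865593951012333664, 2527937051971704679584]]
def c5PH : Mat := [
  [107461934078205984768, 0, 0, 0,
  0, 0, 0, 0,
  0, 0],
  [-572725074494403551232, -121947055993928024064, -4444861454044102656, 1403705159558627328,
  0, -1097661497688981504, 5469001158940950528, 0,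
  -3264024998811009024, 0],
  [1114413042579512256000, 781718455860662103552, 0, 0,
  0, 0, 0, 0,
  0, 0],
  [-623538689002448085504, -2270777759518803819264, 0, 0,
  0, 79851447630050870016, 0, 0,
  0, 0],
  [-1067509817292050069760, 3902288548535785725696, -12601137493297956096, 0,
  0, -346218226127982229248, 0, 0,
  0, 0],
  [2236897221283238957568, -4217304749822398901952, 100345230596481993792, 0,
  0, 582728896728276798528, -17389622286558472896, 0,
  0, 0],
  [-1759369860636495055200, 2721687873889770496800, -35875855250713979424, -18856518791524077024,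
  0, -405315536278985563968, -197000851687957020096, 0,
  106713385216404462144, 0],
  [658682564961817388736, -883408238067944547072, -147765401136517479552, 27887101466137762752,
  0, 55743679218638169792, 407887562123002805184, 0,
  -190578595441131861120, 0],
  [-94311321477377825376, 87742925116856966304, 100342024738091523936, -10434287834172313056,
  0, 34307400327690936384, -198966089307428262720, 0,
  87129235223538408000, 0],
  [],
  []]
def c5Pg : Tr := (.N false 3 1 0 (.N true 0 0 2 (.N false 0 1 0 (.N true 1 1 2 (.L 0)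
 (.N false 0 3 0 (.N false 1 7 0 (.L 0)
 (.L 0))
 (.L 0)))
 (.N true 1 1 2 (.L 0)
 (.N false 0 0 1 (.L 0)
 (.L 0))))
 (.N false 0 1 0 (.N true 3 1 0 (.L 0)
 (.N false 0 3 0 (.N true 3 0 1 (.L 0)
 (.N false 1 7 0 (.L 0)
 (.L 0)))
 (.L 0)))
 (.L 0)))
 (.N true 3 1 0 (.N true 0 0 2 (.N false 0 7 0 (.N false 1 3 0 (.L 0)
 (.N true 0 1 0 (.L 0)
 (.N true 1 0 2 (.N false 1 0 1 (.L 0)
 (.N false 3 0 3 (.L 0)
 (.L 0)))
 (.L 0))))
 (.L 0))
 (.N false 3 0 1 (.L 0)
 (.N true 3 3 0 (.N false 1 3 0 (.L 0)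
 (.L 0))
 (.N false 0 15 0 (.N false 1 3 0 (.L 0)
 (.N false 1 0 1 (.L 0)
 (.N false 3 0 7 (.L 0)
 (.N true 3 0 1 (.L 0)
 (.L 0)))))
 (.N false 1 0 7 (.L 0)
 (.L 0))))))
 (.L 0)))
def c5Ph : Tr := (.N false 0 1 0 (.N false 0 2 0 (.L 0)
 (.N false 0 0 1 (.N true 0 0 2 (.L 0)
 (.N true 3 1 0 (.N false 0 1 0 (.L 0)
 (.N true 0 0 5 (.L 0)
 (.L 0)))
 (.L 0)))
 (.N true 0 0 2 (.N true 1 1 2 (.L 0)
 (.L 0))
 (.N true 3 1 0 (.N false 0 0 3 (.N true 0 0 5 (.L 0)
 (.L 0))
 (.L 0))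
 (.L 0)))))
 (.N false 0 0 2 (.N false 0 1 0 (.N true 0 0 2 (.N true 1 1 2 (.L 0)
 (.N false 0 3 0 (.N true 3 0 2 (.L 0)
 (.N true 1 0 5 (.L 0)
 (.L 0)))
 (.N true 1 0 5 (.L 0)
 (.N true 3 0 2 (.L 0)
 (.N true 1 0 11 (.L 0)
 (.N true 3 0 5 (.L 0)
 (.L 0)))))))
 (.N false 0 3 0 (.N true 1 0 2 (.N true 0 0 5 (.N false 0 7 0 (.L 0)
 (.L 0))
 (.N false 0 7 0 (.L 0)
 (.N true 3 11 0 (.L 0)
 (.L 0))))
 (.N true 3 1 0 (.L 0)
 (.L 0)))
 (.N true 1 0 2 (.N true 3 11 0 (.N false 0 0 1 (.L 0)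
 (.L 0))
 (.L 0))
 (.N true 3 1 0 (.N false 0 0 1 (.N true 3 3 0 (.L 0)
 (.L 0))
 (.L 0))
 (.N true 1 0 5 (.L 0)
 (.L 0))))))
 (.N true 3 1 0 (.N true 0 0 2 (.N false 0 0 1 (.N true 1 3 2 (.L 1000000)
 (.L 35014))
 (.N false 0 0 3 (.N true 1 3 2 (.L 1000000)
 (.N true 1 0 5 (.L 1000000)
 (.L 397604)))
 (.L 2000000)))
 (.N true 3 3 0 (.N true 0 0 5 (.N true 1 3 2 (.N true 0 1 0 (.N false 0 0 1 (.L 0)
 (.L 1249863))
 (.L 0))
 (.L 0))
 (.L 0))
 (.N true 3 0 1 (.N true 0 3 2 (.N true 1 7 2 (.N false 0 0 1 (.L 0)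
 (.L 1249863))
 (.N false 0 0 1 (.L 0)
 (.L 263680)))
 (.L 0))
 (.N false 0 0 1 (.L 0)
 (.N true 0 7 2 (.N false 0 0 3 (.L 230476)
 (.L 2000000))
 (.N true 3 0 3 (.N false 0 0 3 (.L 0)
 (.N true 0 0 5 (.N false 0 0 7 (.L 0)
 (.N false 0 0 15 (.L 0)
 (.L 1617889)))
 (.N true 3 1 0 (.L 0)
 (.N false 0 0 7 (.L 0)
 (.N true 1 0 5 (.L 0)
 (.N true 3 0 1 (.L 0)
 (.N false 0 0 15 (.L 0)
 (.N true 1 0 11 (.L 1000000)
 (.N true 3 0 3 (.L 1382431)
 (.L 1499325))))))))))
 (.N false 0 0 3 (.L 0)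
 (.N true 1 0 23 (.N false 0 0 7 (.L 0)
 (.N false 0 0 15 (.L 724650)
 (.L 1617889)))
 (.N true 3 0 7 (.N false 0 0 7 (.N true 0 0 5 (.N false 0 1 0 (.L 0)
 (.N false 0 0 1 (.L 0)
 (.L 1353903)))
 (.N true 3 1 0 (.L 0)
 (.N false 0 1 0 (.L 0)
 (.N true 1 0 5 (.L 0)
 (.N true 3 0 1 (.L 854494)
 (.N false 0 0 1 (.L 0)
 (.L 1162741)))))))
 (.N true 0 0 5 (.L 2000000)
 (.N true 3 1 0 (.N false 0 0 15 (.N true 0 0 11 (.N false 0 1 0 (.L 1158848)
 (.L 2000000))
 (.N true 3 3 0 (.L 1185990)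
 (.N false 0 1 0 (.L 1133988)
 (.L 1397222))))
 (.L 1667908))
 (.N false 0 0 15 (.N true 1 0 5 (.N false 0 1 0 (.L 1158848)
 (.L 2000000))
 (.N true 3 0 1 (.N false 0 1 0 (.L 1268783)
 (.L 2000000))
 (.L 2000000)))
 (.L 2000000)))))
 (.N false 0 0 7 (.N true 1 0 47 (.N false 0 1 0 (.L 0)
 (.N false 0 0 1 (.L 563929)
 (.L 1353903)))
 (.N true 3 0 15 (.N false 0 1 0 (.N true 0 0 5 (.N false 0 3 0 (.L 0)
 (.L 994880))
 (.N true 3 1 0 (.L 0)
 (.N false 0 3 0 (.L 0)
 (.N true 1 0 5 (.L 0)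
 (.N true 3 0 1 (.L 832751)
 (.L 982024))))))
 (.N true 0 0 5 (.L 2000000)
 (.N true 3 1 0 (.N false 0 0 1 (.N true 0 0 11 (.L 1107691)
 (.N true 3 3 0 (.L 1029786)
 (.L 1077482)))
 (.L 1371743))
 (.N false 0 0 1 (.L 1125673)
 (.L 2000000)))))
 (.N false 0 1 0 (.N true 1 0 95 (.N false 0 3 0 (.L 0)
 (.L 994880))
 (.N true 3 0 31 (.N false 0 3 0 (.L 869542)
 (.N true 0 0 5 (.L 2000000)
 (.N true 3 1 0 (.L 1010371)
 (.L 1094503))))
 (.N false 0 3 0 (.N true 1 0 191 (.L 882036)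
 (.N true 3 0 63 (.L 918676)
 (.L 949926)))
 (.L 2000000))))
 (.L 2000000))))
 (.L 2000000)))))))))))
 (.N true 3 0 1 (.N true 0 3 2 (.N false 0 0 1 (.N false 0 1 0 (.N false 0 3 0 (.L 0)
 (.N false 0 0 1 (.L 0)
 (.L 1000000)))
 (.L 1000000))
 (.L 2000000))
 (.N true 3 1 0 (.N false 0 0 1 (.N true 0 0 5 (.N false 0 1 0 (.L 0)
 (.N false 0 0 1 (.L 0)
 (.N false 0 0 3 (.L 250622)
 (.L 1000000))))
 (.N true 3 3 0 (.L 0)
 (.N false 0 1 0 (.L 0)
 (.N true 0 1 2 (.N false 0 0 1 (.L 0)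
 (.N false 0 0 3 (.L 250622)
 (.L 1000000)))
 (.N true 3 0 1 (.L 0)
 (.N false 0 0 1 (.L 0)
 (.N true 1 0 11 (.L 0)
 (.N true 3 0 3 (.N false 0 0 3 (.L 0)
 (.L 374260))
 (.N false 0 0 3 (.L 238151)
 (.L 431411))))))))))
 (.N true 0 0 5 (.L 2000000)
 (.N true 3 3 0 (.N false 0 0 3 (.N true 0 0 11 (.N false 0 1 0 (.N false 0 3 0 (.L 0)
 (.L 647722))
 (.L 1000000))
 (.N true 3 7 0 (.N false 0 1 0 (.L 0)
 (.N true 0 0 23 (.N false 0 0 1 (.N false 0 1 0 (.L 341027)
 (.L 957292))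
 (.L 1000000))
 (.N true 3 15 0 (.N false 0 0 1 (.L 0)
 (.N true 0 0 47 (.N false 0 0 3 (.L 781257)
 (.L 1000000))
 (.N true 3 31 0 (.N false 0 0 3 (.L 0)
 (.N true 0 0 95 (.L 897944)
 (.N true 3 63 0 (.L 822983)
 (.L 855968))))
 (.N false 0 0 3 (.L 755912)
 (.L 910264)))))
 (.N false 0 0 1 (.N true 0 1 2 (.N false 0 1 0 (.L 0)
 (.L 957292))
 (.N true 3 0 1 (.L 582969)
 (.N false 0 1 0 (.L 0)
 (.L 720987))))
 (.N true 0 1 2 (.L 1000000)
 (.N true 3 0 1 (.N false 0 0 3 (.L 805578)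
 (.L 1000000))
 (.L 1000000)))))))
 (.N false 0 1 0 (.N true 0 1 2 (.N false 0 3 0 (.L 0)
 (.L 647722))
 (.N true 3 0 1 (.L 424070)
 (.N false 0 3 0 (.L 0)
 (.N true 1 0 11 (.L 487495)
 (.N true 3 0 3 (.N false 0 0 1 (.L 0)
 (.L 610514))
 (.N false 0 0 1 (.L 522602)
 (.L 1000000)))))))
 (.N true 0 1 2 (.L 1000000)
 (.N true 3 0 1 (.N false 0 0 1 (.N true 0 0 5 (.L 1000000)
 (.N true 3 1 0 (.N false 0 1 0 (.L 635743)
 (.L 969107))
 (.L 751239)))
 (.L 1000000))
 (.L 1000000))))))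
 (.L 2000000))
 (.N false 0 0 3 (.N true 0 1 2 (.L 1000000)
 (.N true 3 0 1 (.N false 0 1 0 (.N true 0 0 5 (.L 1000000)
 (.N true 3 1 0 (.N false 0 3 0 (.L 444652)
 (.L 658015))
 (.N false 0 3 0 (.L 490345)
 (.L 1000000))))
 (.L 1000000))
 (.L 1000000)))
 (.L 2000000)))))
 (.N false 0 0 1 (.N true 0 1 2 (.N false 0 1 0 (.N false 0 3 0 (.L 0)
 (.N false 0 0 1 (.L 0)
 (.L 1000000)))
 (.L 1000000))
 (.N true 3 0 1 (.N false 0 1 0 (.L 0)
 (.N true 0 0 5 (.N false 0 0 1 (.N false 0 1 0 (.L 153981)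
 (.L 1000000))
 (.L 1000000))
 (.N true 3 1 0 (.N false 0 0 1 (.L 161746)
 (.N true 0 0 11 (.L 1000000)
 (.N true 3 3 0 (.N false 0 0 3 (.L 308239)
 (.L 1000000))
 (.L 444449))))
 (.N false 0 0 1 (.N true 1 0 5 (.L 166706)
 (.N true 3 0 1 (.N false 0 1 0 (.L 0)
 (.L 247301))
 (.N false 0 1 0 (.L 143299)
 (.L 341117))))
 (.L 1000000)))))
 (.N false 0 1 0 (.N true 1 0 11 (.L 0)
 (.N true 3 0 3 (.L 0)
 (.N false 0 3 0 (.L 0)
 (.N true 1 0 23 (.L 0)
 (.N true 3 0 7 (.N false 0 0 1 (.L 0)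
 (.L 136249))
 (.N false 0 0 1 (.L 0)
 (.L 168924)))))))
 (.N true 1 0 11 (.N false 0 0 1 (.N false 0 1 0 (.L 153981)
 (.L 1000000))
 (.L 1000000))
 (.N true 3 0 3 (.N false 0 0 1 (.N true 0 0 5 (.L 1000000)
 (.N true 3 1 0 (.N false 0 1 0 (.L 190114)
 (.L 1000000))
 (.L 286854)))
 (.L 1000000))
 (.L 1000000))))))
 (.L 2000000))))
 (.N true 0 7 2 (.L 2000000)
 (.N false 0 0 1 (.N true 3 0 3 (.N true 0 0 5 (.N false 0 1 0 (.N false 0 3 0 (.L 80586)
 (.L 1000000))
 (.L 1000000))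
 (.N true 3 1 0 (.N false 0 1 0 (.N true 0 0 11 (.N false 0 3 0 (.L 35718)
 (.L 1000000))
 (.N true 3 3 0 (.N false 0 3 0 (.L 0)
 (.N true 0 0 23 (.L 171653)
 (.N true 3 7 0 (.N false 0 0 1 (.L 78524)
 (.L 1000000))
 (.N false 0 0 1 (.L 109150)
 (.L 1000000)))))
 (.N false 0 3 0 (.L 0)
 (.L 174735))))
 (.L 1000000))
 (.N false 0 1 0 (.N true 1 0 5 (.N false 0 3 0 (.L 37598)
 (.L 1000000))
 (.N true 3 0 1 (.N false 0 3 0 (.L 58965)
 (.L 1000000))
 (.N false 0 3 0 (.L 70864)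
 (.L 1000000))))
 (.L 1000000))))
 (.N true 1 0 23 (.N false 0 1 0 (.N false 0 3 0 (.L 80586)
 (.L 1000000))
 (.L 1000000))
 (.N false 0 1 0 (.N true 3 0 7 (.N true 0 0 5 (.L 208706)
 (.N true 3 1 0 (.N false 0 3 0 (.L 83318)
 (.L 1000000))
 (.N false 0 3 0 (.L 105606)
 (.L 1000000))))
 (.L 209032))
 (.L 1000000))))
 (.L 2000000))))))
 (.N true 0 0 2 (.L 63000000)
 (.N true 3 1 0 (.N true 0 0 5 (.N false 0 0 5 (.N true 0 1 0 (.L 12000000)
 (.N true 3 0 2 (.N false 0 1 0 (.L 3527979)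
 (.L 10000000))
 (.L 12000000)))
 (.L 51000000))
 (.N true 3 3 0 (.N false 0 0 5 (.N true 0 0 11 (.N false 0 1 0 (.L 0)
 (.N true 0 1 0 (.L 5555951)
 (.L 4319476)))
 (.N true 3 7 0 (.L 0)
 (.N false 0 1 0 (.L 0)
 (.N true 3 0 1 (.L 0)
 (.L 3981679)))))
 (.N true 0 0 11 (.L 43434852)
 (.N true 3 7 0 (.L 7053675)
 (.N false 0 0 11 (.L 13345356)
 (.L 24000000)))))
 (.N false 0 0 5 (.N true 3 0 1 (.N false 0 1 0 (.N true 3 1 0 (.L 1203758)
 (.N false 0 3 0 (.N true 1 3 2 (.L 0)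
 (.N true 3 0 1 (.L 0)
 (.N false 0 7 0 (.L 0)
 (.L 2088150))))
 (.N true 1 3 2 (.L 2051045)
 (.N true 3 0 1 (.N false 0 0 1 (.L 2438742)
 (.L 5051255))
 (.L 4126949)))))
 (.N true 3 1 0 (.N false 0 0 1 (.L 5143068)
 (.L 8000000))
 (.L 10000000)))
 (.N false 0 1 0 (.N true 1 0 2 (.N false 0 3 0 (.N false 0 7 0 (.L 0)
 (.L 2324193))
 (.L 4000000))
 (.N true 3 0 3 (.N false 0 3 0 (.N true 3 1 0 (.N false 0 7 0 (.N true 1 7 2 (.L 0)
 (.N true 3 3 0 (.L 0)
 (.N false 0 15 0 (.L 0)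
 (.L 1969333))))
 (.L 2619482))
 (.N false 0 7 0 (.N true 1 3 2 (.N false 0 15 0 (.L 0)
 (.L 2000000))
 (.N true 3 0 1 (.N false 0 15 0 (.L 1701237)
 (.L 3000000))
 (.L 3349456)))
 (.L 3000000)))
 (.L 5000000))
 (.L 5000000)))
 (.L 12000000)))
 (.L 44000000))))
 (.L 57000000)))))
def c5P_ok : c5P.ok c5PG c5PH = true := by decide +kernel
def c5P_G_0 : (((leaves c5Pg (RB 1 0) R3 []).drop 0).take 12).all (leafOK s8 s8 c5PG []) = true := by
  decide +kernel
def c5P_G_1 : (((leaves c5Pg (RB 1 0) R3 []).drop 12).take 12).all (leafOK s8 s8 c5PG []) = true := by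
  decide +kernel
def c5P_G_2 : ((leaves c5Pg (RB 1 0) R3 []).drop 24).all (leafOK s8 s8 c5PG []) = true := by
  decide +kernel
theorem c5P_G : ((leaves c5Pg (RB 1 0) R3 []).drop 0).all (leafOK s8 s8 c5PG []) = true :=
  chunk _ _ 0 12 c5P_G_0
    (chunk _ _ 12 12 c5P_G_1
    (c5P_G_2))
def c5P_H_0 : (((leaves c5Ph (rZ 3) R3 []).drop 0).take 25).all (leafOK (sZ 10) s8 c5PH (mkCon 3 c5P.cc 0 1)) = true := by
  decide +kernel
def c5P_H_1 : (((leaves c5Ph (rZ 3) R3 []).drop 25).take 25).all (leafOK (sZ 10) s8 c5PH (mkCon 3 c5P.cc 0 1)) = true := by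
  decide +kernel
def c5P_H_2 : (((leaves c5Ph (rZ 3) R3 []).drop 50).take 25).all (leafOK (sZ 10) s8 c5PH (mkCon 3 c5P.cc 0 1)) = true := by
  decide +kernel
def c5P_H_3 : (((leaves c5Ph (rZ 3) R3 []).drop 75).take 25).all (leafOK (sZ 10) s8 c5PH (mkCon 3 c5P.cc 0 1)) = true := by
  decide +kernel
def c5P_H_4 : (((leaves c5Ph (rZ 3) R3 []).drop 100).take 25).all (leafOK (sZ 10) s8 c5PH (mkCon 3 c5P.cc 0 1)) = true := by
  decide +kernel
def c5P_H_5 : (((leaves c5Ph (rZ 3) R3 []).drop 125).take 25).all (leafOK (sZ 10) s8 c5PH (mkCon 3 c5P.cc 0 1)) = true := by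
  decide +kernel
def c5P_H_6 : (((leaves c5Ph (rZ 3) R3 []).drop 150).take 25).all (leafOK (sZ 10) s8 c5PH (mkCon 3 c5P.cc 0 1)) = true := by
  decide +kernel
def c5P_H_7 : (((leaves c5Ph (rZ 3) R3 []).drop 175).take 25).all (leafOK (sZ 10) s8 c5PH (mkCon 3 c5P.cc 0 1)) = true := by
  decide +kernel
def c5P_H_8 : (((leaves c5Ph (rZ 3) R3 []).drop 200).take 25).all (leafOK (sZ 10) s8 c5PH (mkCon 3 c5P.cc 0 1)) = true := by
  decide +kernel
def c5P_H_9 : (((leaves c5Ph (rZ 3) R3 []).drop 225).take 25).all (leafOK (sZ 10) s8 c5PH (mkCon 3 c5P.cc 0 1)) = true := by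
  decide +kernel
def c5P_H_10 : (((leaves c5Ph (rZ 3) R3 []).drop 250).take 25).all (leafOK (sZ 10) s8 c5PH (mkCon 3 c5P.cc 0 1)) = true := by
  decide +kernel
def c5P_H_11 : (((leaves c5Ph (rZ 3) R3 []).drop 275).take 25).all (leafOK (sZ 10) s8 c5PH (mkCon 3 c5P.cc 0 1)) = true := by
  decide +kernel
def c5P_H_12 : ((leaves c5Ph (rZ 3) R3 []).drop 300).all (leafOK (sZ 10) s8 c5PH (mkCon 3 c5P.cc 0 1)) = true := by
  decide +kernel
theorem c5P_H : ((leaves c5Ph (rZ 3) R3 []).drop 0).all (leafOK (sZ 10) s8 c5PH (mkCon 3 c5P.cc 0 1)) = true :=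
  chunk _ _ 0 25 c5P_H_0
    (chunk _ _ 25 25 c5P_H_1
    (chunk _ _ 50 25 c5P_H_2
    (chunk _ _ 75 25 c5P_H_3
    (chunk _ _ 100 25 c5P_H_4
    (chunk _ _ 125 25 c5P_H_5
    (chunk _ _ 150 25 c5P_H_6
    (chunk _ _ 175 25 c5P_H_7
    (chunk _ _ 200 25 c5P_H_8
    (chunk _ _ 225 25 c5P_H_9
    (chunk _ _ 250 25 c5P_H_10
    (chunk _ _ 275 25 c5P_H_11
    (c5P_H_12))))))))))))
theorem c5P_low : Low (1 / 2) (pol c5P.f) (pol c5P.g) (pol c5P.φ) (pol c5P.ψ) c5P.κ :=
  c5P.low c5P_ok (by norm_num) (by norm_num) c5P_G c5P_H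


end Vale.Agent.P154.AF
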