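import Vale.Agent.P154.AF.Z50
import Vale.Agent.P154.AF.C5p

set_option linter.defProp false

namespace Vale.Agent.P154.AF

def c5A : LD where
  f := [282493769, 968092414, -580021013, -65620350, -11407393, 61167865]
  g := [271202362, 1027747544, -731437111, -1554542488, -2817451790, 819928169, 2836789558, 7548546230, -1767694175]
  φ := []
  ψ := []
  κ := 1293420944
  cs := [-586237251409408, 73141199010356736, -4939579700871515136,
  -1210964210659653120, 69580819912876312320, 157051313970301677312,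
  10838535681665175552, -287877330288963518976, -29389486105837333872,
  -31574982250456549632, -6511586831286110784, 708650765440048052928,
  1620396407889329020416, 337191455207251394784, 124679182734740696112,
  21993786982173355200, -1734824881345400136216, -5957728685417289160944,
  -179705103617438995122, -4680818078986704982176, -243056741259071455092,
  -70078964308118471016, -11312639789320436760, 1635680537981937139248,
  231152722778385561924, 315715099924211452524, 75716390799926212500,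
  189239929715034176688, 38852983579850078400, 9425408724400132980,
  1434321630798432192, -585276736169447090586, -1575819658071760816728,
  -437824487934636431112, -8883946799184781692, -225806047969794988572,
  -13351154008532117283, -110626595647760628792, -5578089207550767612,
  -1197515716143522714, -173267435880181386]
  Sp := 6879707136
  K := 6291456
  cc := 6879707136000
def c5AG : Mat := [
  [-98784681487020750387, 1047483481095045258732, -3601772966526910136298, 4002455802007047285396,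
  -140694869879125110315, -673799303514833427636, 4363468408028230378092, -6457398054367195420344,
  -1200947599001186433252, 2756759805190288016316],
  [1044905114687183920620, -11080819393775788879440, 38146780826148460145616, -42583231251865582033680,
  1627072132953701189268, 7156882850303606835816, -46381439948835453314256, 68957020578817276881912,
  12800742698922360983424, -29663499700233606168288],
  [-3592167046644207124458, 38146780826148460145616, -131762091960948030989544, 148324384454837736092184,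
  -6279308931569016884166, -24685254977935476965220, 160488094881390861046968, -240901513152793229531988,
  -44282987025572409858576, 104499064601615200675968],
  [3991031057222205352596, -42583231251865582033680, 148324384454837736092184, -169888819322422511826768,
  8551956854579179749444, 27502419316500211258656, -180301672493707404332448, 275934591022162684753872,
  49538146506733669201776, -121038387117982279778160],
  [-139794038899124137515, 1627072132953701189268, -6279308931569016884166, 8551956854579179749444,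
  -2363901826550601025647, -1003190831159783778144, 7086672700153470344268, -10949948198736654746700,
  -2570838691717666446012, 5929904363476139169876],
  [-671702380348899990708, 7156882850303606835816, -24685254977935476965220, 27502419316500211258656,
  -1003190831159783778144, -4712988250568012768316, 30561302076085387670400, -45226348711990758316116,
  -8598479288942236656600, 19688851012114537911000],
  [4349002468654584488556, -46381439948835453314256, 160488094881390861046968, -180301672493707404332448,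
  7086672700153470344268, 30561302076085387670400, -198920865062500941430944, 297701229597082317645696,
  55823403390095299785552, -130590984203165130246576],
  [-6435762910454288864952, 68957020578817276881912, -240901513152793229531988, 275934591022162684753872,
  -10949948198736654746700, -45226348711990758316116, 297701229597082317645696, -459377163359304997700988,
  -81732392698247798473656, 202537457871860062775448],
  [-1195670817443636017380, 12800742698922360983424, -44282987025572409858576, 49538146506733669201776,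
  -2570838691717666446012, -8598479288942236656600, 55823403390095299785552, -81732392698247798473656,
  -16451144067770669610432, 36778875738220202236992],
  [2745219407998075372476, -29663499700233606168288, 104499064601615200675968, -121038387117982279778160,
  5929904363476139169876, 19688851012114537911000, -130590984203165130246576, 202537457871860062775448,
  36778875738220202236992, -91297250543363352505920]]
def c5AH : Mat := [
  [23077815638982755328, 0, 0, 0,
  0, 0, 0, 0,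
  0, 0],
  [-312364906503236490240, -30328175239247167488, -41443155278199521280, 11362058928028385280,
  0, 61179506882676523008, 524565395722469376, 0,
  -6356841365045772288, 0],
  [3600953601935334534144, -1835367782793560285184, 0, 0,
  0, 0, 0, 0,
  0, 0],
  [-16908139238828943893760, 12560948421703524094464, 0, 0,
  0, -920337524163855518976, 0, 0,
  0, 0],
  [41907775239061832648736, -41584077653716590558912, 1560493421152758183456, 0,
  0, 7609702593517149249792, 0, 0,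
  0, 0],
  [-61957905003269100390528, 83934019579050059494752, -11242027695840380072352, 0,
  0, -25979335821566126540064, 4556268468289296880992, 0,
  0, 0],
  [56201675039888577187320, -105703163354234684117016, 36514632214356595499016, -347006194071556823784,
  0, 44608495570215318316512, -30429810218430334166688, 0,
  6485767525755727125120, 0],
  [-29223829623273678145008, 74360340401104023396624, -45255052938855686865840, 614477975646914950608,
  0, -37544362977160312078176, 47187143074222720404768, 0,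
  -12927037161956133844224, 0],
  [6668757075350231794008, -21702371435873524857240, 18463398154464912777000, -278833840503386512104,
  0, 12164658652275150047904, -21314125889477405588448, 0,
  6447626477565452491392, 0],
  [],
  []]
def c5Ag : Tr := (.N true 0 0 2 (.N false 0 1 0 (.N true 0 1 0 (.L 0)
 (.L 0))
 (.L 0))
 (.N true 3 1 0 (.N false 0 1 0 (.N false 1 3 0 (.N false 0 3 0 (.N true 3 3 0 (.L 0)
 (.L 0))
 (.L 0))
 (.L 0))
 (.N false 3 1 0 (.N true 0 0 5 (.L 0)
 (.N false 3 3 0 (.N false 0 0 1 (.N true 3 3 0 (.N true 0 0 11 (.L 0)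
 (.L 0))
 (.L 0))
 (.N true 3 3 0 (.N true 0 0 11 (.L 0)
 (.L 0))
 (.L 0)))
 (.N true 3 3 0 (.N true 0 0 11 (.L 0)
 (.L 0))
 (.L 0))))
 (.L 0)))
 (.N false 0 1 0 (.N false 1 3 0 (.L 0)
 (.L 0))
 (.L 0))))
def c5Ah : Tr := (.N false 0 1 0 (.N false 0 2 0 (.N false 0 5 0 (.L 0)
 (.L 0))
 (.N true 0 0 2 (.N true 1 1 2 (.N false 0 0 1 (.L 0)
 (.N true 0 1 0 (.N false 0 0 3 (.L 0)
 (.N true 1 3 0 (.L 0)
 (.L 0)))
 (.N true 3 1 0 (.N false 0 0 3 (.L 0)
 (.N true 0 0 1 (.L 0)
 (.L 0)))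
 (.N false 0 0 3 (.L 0)
 (.L 0)))))
 (.N false 0 0 1 (.L 0)
 (.N false 0 0 3 (.L 0)
 (.L 0))))
 (.N true 3 1 0 (.N false 0 0 1 (.N false 0 1 0 (.L 0)
 (.N true 0 0 5 (.N false 0 0 1 (.L 0)
 (.L 0))
 (.N false 0 0 1 (.L 0)
 (.L 0))))
 (.L 0))
 (.N false 0 0 1 (.N false 0 1 0 (.L 0)
 (.N true 3 0 1 (.N false 0 0 1 (.L 0)
 (.L 0))
 (.L 0)))
 (.L 0)))))
 (.N false 0 0 2 (.N false 0 1 0 (.N true 3 1 0 (.N true 0 0 2 (.N true 1 3 2 (.N false 0 3 0 (.N true 0 1 0 (.L 0)
 (.N false 0 7 0 (.N true 0 0 1 (.L 0)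
 (.L 0))
 (.L 0)))
 (.L 0))
 (.N true 1 0 5 (.N false 0 3 0 (.N false 0 7 0 (.L 0)
 (.L 0))
 (.L 0))
 (.N false 0 3 0 (.N true 3 1 2 (.N true 3 3 0 (.N false 0 7 0 (.L 0)
 (.L 0))
 (.N false 0 7 0 (.L 0)
 (.N false 0 0 1 (.L 0)
 (.L 0))))
 (.N false 0 7 0 (.L 0)
 (.L 0)))
 (.N true 3 1 2 (.L 0)
 (.L 0)))))
 (.N false 0 3 0 (.N true 0 0 5 (.N true 1 1 2 (.N false 0 7 0 (.N true 0 1 0 (.L 0)
 (.L 0))
 (.N true 0 1 0 (.N true 1 3 0 (.N true 0 3 0 (.N false 0 0 1 (.L 0)
 (.L 0))
 (.N true 3 1 0 (.N false 0 0 1 (.L 0)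
 (.L 0))
 (.N false 0 0 1 (.L 0)
 (.L 0))))
 (.N false 0 0 1 (.L 0)
 (.L 0)))
 (.N false 0 0 1 (.L 0)
 (.L 0))))
 (.N false 0 7 0 (.L 0)
 (.L 0)))
 (.L 0))
 (.N true 1 1 2 (.N true 0 0 5 (.L 0)
 (.N false 0 0 1 (.N true 3 23 0 (.N false 0 1 0 (.L 0)
 (.L 0))
 (.L 0))
 (.L 0)))
 (.N false 0 0 1 (.N false 0 1 0 (.L 0)
 (.L 0))
 (.L 0)))))
 (.N true 1 1 2 (.N false 0 3 0 (.N true 0 3 2 (.L 0)
 (.N true 3 2 0 (.N true 0 0 5 (.L 0)
 (.L 0))
 (.L 0)))
 (.N true 0 3 2 (.L 0)
 (.N true 0 0 5 (.L 0)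
 (.N true 3 2 0 (.L 0)
 (.L 0)))))
 (.N false 0 3 0 (.N true 0 0 2 (.L 0)
 (.L 0))
 (.N true 0 0 2 (.L 0)
 (.L 0)))))
 (.L 0))
 (.L 0)))
def c5A_ok : c5A.ok c5AG c5AH = true := by decide +kernel
def c5A_G_0 : (((leaves c5Ag (RB 1 0) R3 []).drop 0).take 12).all (leafOK s8 s8 c5AG []) = true := by
  decide +kernel
def c5A_G_1 : ((leaves c5Ag (RB 1 0) R3 []).drop 12).all (leafOK s8 s8 c5AG []) = true := by
  decide +kernel
theorem c5A_G : ((leaves c5Ag (RB 1 0) R3 []).drop 0).all (leafOK s8 s8 c5AG []) = true :=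
  chunk _ _ 0 12 c5A_G_0
    (c5A_G_1)
def c5A_H_0 : (((leaves c5Ah (rZ 3) R3 []).drop 0).take 25).all (leafOK (sZ 10) s8 c5AH (mkCon 3 c5A.cc 0 1)) = true := by
  decide +kernel
def c5A_H_1 : (((leaves c5Ah (rZ 3) R3 []).drop 25).take 25).all (leafOK (sZ 10) s8 c5AH (mkCon 3 c5A.cc 0 1)) = true := by
  decide +kernel
def c5A_H_2 : (((leaves c5Ah (rZ 3) R3 []).drop 50).take 25).all (leafOK (sZ 10) s8 c5AH (mkCon 3 c5A.cc 0 1)) = true := by
  decide +kernel
def c5A_H_3 : ((leaves c5Ah (rZ 3) R3 []).drop 75).all (leafOK (sZ 10) s8 c5AH (mkCon 3 c5A.cc 0 1)) = true := by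
  decide +kernel
theorem c5A_H : ((leaves c5Ah (rZ 3) R3 []).drop 0).all (leafOK (sZ 10) s8 c5AH (mkCon 3 c5A.cc 0 1)) = true :=
  chunk _ _ 0 25 c5A_H_0
    (chunk _ _ 25 25 c5A_H_1
    (chunk _ _ 50 25 c5A_H_2
    (c5A_H_3)))
theorem c5A_low : Low (1 / 2) (pol c5A.f) (pol c5A.g) (pol c5A.φ) (pol c5A.ψ) c5A.κ :=
  c5A.low c5A_ok (by norm_num) (by norm_num) c5A_G c5A_H

def c5B : LD where
  f := [994510256, -333136840, -168436826, 106416460, -72747965, -26442081]
  g := [976838273, -327850945, -27724262, 167904390, 1446721438, -1014735261, -715081619, -5910649463, 2182279713]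
  φ := []
  ψ := []
  κ := 1902155705
  cs := [-3000751859197952, 491997515539488768, -20554271339906057472,
  -11311990132550499072, 276409032030414038016, 665508897938220215040,
  126339514250770743552, -1197023782053873000960, -107738739748708464384,
  -146783845419778828224, -85707082962384397056, 3011164085074179196800,
  7064381300713376348160, 1227384759910365864000, 638172305652191241312,
  304021060233797605248, -7753882954703955231456, -25922956950066432941568,
  -606491218148753772144, -21192663897835560951552, -915503923299355136676,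
  -388530416545548039504, -156703649261986407888, 7490244136920842991744,
  1017813528742088863296, 1399673018102040805392, 251676157667002007616,
  876470465431412163072, 152937110454394962744, 55386252777547703736,
  19376316867183647616, -2737210833343509075072, -7307655936560602124400,
  -1955044511025641865144, -27977533535182636485, -1009895699386288379880,
  -44690153884284082158, -514408797152758952928, -22891734091375937919,
  -7304746193310840840, -2251264902072697188]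
  Sp := 41278242816
  K := 37748736
  cc := 41278242816000
def c5BG : Mat := [
  [-441068209721065631394, 4593040308411814664406, -15764403180873703704246, 17951486031427758111594,
  -402502248331673733648, -2799122683939487153352, 18151584680179923364368, -28989156946775165574984,
  -4174396153378123103640, 11840027294372142262752],
  [4606573226468291139798, -48006899330530241772144, 165064217270079477681828, -188721510917250098762064,
  4928561907377074481286, 29357490202619419055232, -190687184832671848028448, 305346674041203624243264,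
  44290801999171489930272, -125955903027950636657472],
  [-15814716098689894926006, 165064217270079477681828, -568978245276705823504896, 653663852080604235406044,
  -20386100947934557549530, -101549356077361672530000, 660971721086026399371168, -1060135131856742987289552,
  -156118441081918028642640, 442992473795805708296160],
  [18013421754116616403818, -188721510917250098762064, 653663852080604235406044, -756722853529374640289616,
  30348939241614385104282, 117233350840354528290528, -765666576367610573444832, 1228301221812666395777568,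
  185877560346976582811712, -522071495336479008668256],
  [-409174890693573347856, 4928561907377074481286, -20386100947934557549530, 30348939241614385104282,
  -8514350041104321761790, -2796868237120455081384, 21212973162935799260688, -37704058261081015634856,
  -6360936328979139452472, 18215522096080796589600],
  [-2808957842530928622792, 29357490202619419055232, -101549356077361672530000, 117233350840354528290528,
  -2796868237120455081384, -17913931445124083514672, 117541969416908530660800, -191881696713133414617648,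
  -27145690432080940575648, 80233752723874748258976],
  [18219598647094524979728, -190687184832671848028448, 660971721086026399371168, -765666576367610573444832,
  21212973162935799260688, 117541969416908530660800, -772776673660969103140416, 1261623247638167842729920,
  182940158957459019080256, -536382638435015692045632],
  [-29095406578604906585928, 305346674041203624243264, -1060135131856742987289552, 1228301221812666395777568,
  -37704058261081015634856, -191881696713133414617648, 1261623247638167842729920, -2045018337081510232091952,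
  -310369744165716214725024, 885695105582948763299232],
  [-4197114838615344627096, 44290801999171489930272, -156118441081918028642640, 185877560346976582811712,
  -6360936328979139452472, -27145690432080940575648, 182940158957459019080256, -310369744165716214725024,
  -43454605452385421061792, 136151238317287307416416],
  [11894245344090803153376, -125955903027950636657472, 442992473795805708296160, -522071495336479008668256,
  18215522096080796589600, 80233752723874748258976, -536382638435015692045632, 885695105582948763299232,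
  136151238317287307416416, -395904997345299623072928]]
def c5BH : Mat := [
  [118127597689186578432, 0, 0, 0,
  0, 0, 0, 0,
  0, 0],
  [-2247209670713107857408, 452804912322308997120, -394942996636250406912, -29470031282115182592,
  0, -271400584522802135040, 605073603348135936000, 0,
  -243235561254829424640, 0],
  [14984063806791515897088, 1508817806467111749888, 0, 0,
  0, 0, 0, 0,
  0, 0],
  [-67167394783390611237888, 39783522151184321458944, 0, 0,
  0, -34017131293668291587328, 0, 0,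
  0, 0],
  [188005623807065723510400, -255403405725120923362560, 5552699411157634975104, 0,
  0, 186806009466054015784704, 0, 0,
  0, 0],
  [-313597956555475365938688, 611350229153231296703424, -56932829819665580319552, 0,
  0, -414715777978290683326272, 26142099926574696730560, 0,
  0, 0],
  [304757486324684274638448, -740658114847522236110256, 163247874307905008358864, -377747311520924613072,
  0, 475314765210548241933888, -114817082962441186711872, 0,
  14076784000114014815424, 0],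
  [-160025560221523122321120, 457739013154853834786592, -175143455824990062811104, 961784842016655504288,
  0, -281720773790439424145856, 146972350921721331680064, 0,
  -26450919071444223658368, 0],
  [35172819694871506730736, -114772866605415714223152, 63670654922229250203600, -554567499213615708624,
  0, 68604308970318943475904, -58902441489202977634752, 0,
  12617370632585038267584, 0],
  [],
  []]
def c5Bg : Tr := (.N true 0 0 2 (.N false 0 1 0 (.N true 0 1 0 (.N true 1 1 2 (.N false 1 3 0 (.N true 0 3 0 (.L 0)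
 (.L 0))
 (.N true 0 3 0 (.L 0)
 (.N true 0 0 1 (.L 0)
 (.L 0))))
 (.N false 0 3 0 (.L 0)
 (.N false 0 0 1 (.L 0)
 (.N false 3 0 0 (.L 0)
 (.L 0)))))
 (.N false 0 3 0 (.L 0)
 (.N false 0 0 1 (.L 0)
 (.N false 3 0 0 (.L 0)
 (.L 0)))))
 (.N true 1 1 2 (.N false 3 1 0 (.N false 3 3 0 (.N false 0 0 1 (.L 0)
 (.L 0))
 (.N false 3 0 1 (.L 0)
 (.L 0)))
 (.N true 0 1 0 (.N false 1 0 0 (.L 0)
 (.N true 0 3 0 (.L 0)
 (.L 0)))
 (.L 0)))
 (.N false 3 1 0 (.L 0)
 (.L 0))))
 (.N false 0 1 0 (.N true 3 1 0 (.N false 1 3 0 (.N false 3 1 0 (.L 0)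
 (.N true 3 3 0 (.L 0)
 (.N false 3 0 1 (.L 0)
 (.N true 3 0 1 (.L 0)
 (.N true 3 0 3 (.L 0)
 (.L 0))))))
 (.N true 3 3 0 (.L 0)
 (.N true 3 0 1 (.L 0)
 (.N true 3 0 3 (.N false 1 0 1 (.L 0)
 (.L 0))
 (.N false 1 0 1 (.N false 1 1 0 (.L 0)
 (.L 0))
 (.L 0))))))
 (.N false 1 3 0 (.N false 0 3 0 (.L 0)
 (.N false 3 1 0 (.N false 0 0 1 (.L 0)
 (.N false 3 3 0 (.L 0)
 (.L 0)))
 (.L 0)))
 (.N false 0 0 1 (.L 0)
 (.L 0))))
 (.N true 3 1 0 (.N false 3 1 0 (.N true 3 3 0 (.L 0)
 (.N false 3 3 0 (.N true 3 0 1 (.L 0)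
 (.N true 3 0 3 (.L 0)
 (.L 0)))
 (.N true 3 0 1 (.N false 3 0 1 (.N true 3 1 0 (.L 0)
 (.N false 3 1 0 (.L 0)
 (.N true 3 0 1 (.L 0)
 (.L 0))))
 (.L 0))
 (.N false 3 0 1 (.L 0)
 (.L 0)))))
 (.L 0))
 (.N false 3 1 0 (.L 0)
 (.L 0)))))
def c5Bh : Tr := (.N false 0 1 0 (.N false 0 2 0 (.N false 0 5 0 (.N false 0 11 0 (.L 0)
 (.N false 0 0 1 (.N false 0 1 0 (.L 0)
 (.N true 0 0 2 (.N false 0 0 1 (.L 0)
 (.N false 0 0 3 (.L 0)
 (.L 0)))
 (.L 0)))
 (.L 0)))
 (.L 0))
 (.N false 0 0 1 (.N true 3 1 0 (.N false 0 1 0 (.L 0)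
 (.N true 3 3 0 (.N true 0 0 2 (.N false 0 0 1 (.N false 0 1 0 (.L 0)
 (.L 0))
 (.L 0))
 (.N false 0 0 1 (.L 0)
 (.N false 0 0 3 (.L 0)
 (.N true 0 0 5 (.L 0)
 (.N false 0 0 7 (.L 0)
 (.N false 0 0 15 (.L 0)
 (.L 0)))))))
 (.N true 0 7 2 (.N false 0 0 1 (.N false 0 1 0 (.L 0)
 (.L 0))
 (.L 0))
 (.N true 3 0 1 (.N true 3 1 0 (.L 0)
 (.L 0))
 (.L 0)))))
 (.N false 0 1 0 (.L 0)
 (.N false 0 0 1 (.N true 0 3 2 (.N false 0 1 0 (.L 0)
 (.L 0))
 (.L 0))
 (.L 0))))
 (.N true 0 0 2 (.N false 0 0 3 (.L 0)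
 (.N true 1 1 2 (.N true 0 1 0 (.N false 0 0 7 (.L 0)
 (.N true 1 3 0 (.N true 0 3 0 (.N false 0 0 15 (.L 0)
 (.L 0))
 (.N false 0 0 15 (.L 0)
 (.L 0)))
 (.N true 1 0 1 (.N false 0 0 15 (.L 0)
 (.N false 0 0 31 (.L 0)
 (.L 0)))
 (.N false 0 0 15 (.L 0)
 (.N true 3 0 0 (.N true 1 0 1 (.N false 0 0 31 (.L 0)
 (.L 0))
 (.N false 0 0 31 (.L 0)
 (.L 0)))
 (.N true 1 0 3 (.N false 0 0 31 (.L 0)
 (.L 0))
 (.N false 0 0 31 (.L 0)
 (.L 0))))))))
 (.N false 0 0 7 (.L 0)
 (.N true 3 1 0 (.L 0)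
 (.N true 1 0 0 (.N false 0 0 15 (.L 0)
 (.N true 3 0 0 (.L 0)
 (.L 0)))
 (.N false 0 0 15 (.L 0)
 (.N true 0 0 0 (.N true 1 0 1 (.N false 0 0 31 (.L 0)
 (.L 0))
 (.L 0))
 (.L 0)))))))
 (.L 0)))
 (.N true 3 1 0 (.N false 0 0 3 (.N true 3 3 0 (.L 0)
 (.N false 0 1 0 (.N true 3 0 1 (.N true 3 1 0 (.N false 0 3 0 (.N false 0 7 0 (.L 0)
 (.L 0))
 (.L 0))
 (.N false 0 3 0 (.N false 0 7 0 (.N true 0 15 2 (.L 0)
 (.N false 0 15 0 (.L 0)
 (.L 0)))
 (.L 0))
 (.L 0)))
 (.L 0))
 (.L 0)))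
 (.L 0))
 (.L 0)))))
 (.N false 0 0 2 (.N false 0 1 0 (.N true 0 0 2 (.N true 1 1 2 (.N false 0 3 0 (.N true 0 1 0 (.N true 1 3 0 (.L 0)
 (.N false 0 7 0 (.N true 1 0 1 (.L 0)
 (.N true 3 0 0 (.L 0)
 (.L 0)))
 (.L 0)))
 (.N false 0 7 0 (.N true 3 1 0 (.N true 0 0 1 (.N false 0 15 0 (.N true 0 1 0 (.N true 1 1 0 (.N false 0 31 0 (.L 0)
 (.L 0))
 (.N false 0 31 0 (.N false 0 63 0 (.L 0)
 (.L 0))
 (.L 0)))
 (.N true 0 0 1 (.N false 0 31 0 (.L 0)
 (.L 0))
 (.N false 0 31 0 (.L 0)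
 (.N false 0 0 1 (.L 0)
 (.N true 3 0 0 (.L 0)
 (.L 0))))))
 (.L 0))
 (.N false 0 15 0 (.N true 3 3 0 (.N true 0 0 3 (.N false 0 31 0 (.L 0)
 (.N true 0 1 0 (.L 0)
 (.L 0)))
 (.L 0))
 (.N true 1 0 0 (.N false 0 31 0 (.L 0)
 (.N true 3 0 0 (.L 0)
 (.N true 1 1 0 (.N false 0 0 1 (.L 0)
 (.L 0))
 (.N false 0 0 1 (.L 0)
 (.L 0)))))
 (.N false 0 31 0 (.L 0)
 (.N true 0 0 0 (.N true 0 1 0 (.L 0)
 (.L 0))
 (.L 0)))))
 (.N true 3 3 0 (.N true 0 0 3 (.N false 0 0 1 (.N true 0 1 0 (.N true 0 3 0 (.N false 0 1 0 (.N true 1 1 0 (.L 0)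
 (.L 0))
 (.L 0))
 (.N false 0 1 0 (.L 0)
 (.L 0)))
 (.N true 3 0 0 (.N false 0 1 0 (.L 0)
 (.N true 0 0 1 (.L 0)
 (.L 0)))
 (.N false 0 1 0 (.L 0)
 (.L 0))))
 (.N true 0 1 0 (.L 0)
 (.N true 3 0 0 (.N false 0 0 3 (.N true 0 0 1 (.L 0)
 (.L 0))
 (.L 0))
 (.L 0))))
 (.N true 3 7 0 (.N false 0 0 1 (.L 0)
 (.N true 0 0 7 (.N false 0 0 3 (.L 0)
 (.N true 0 1 0 (.L 0)
 (.L 0)))
 (.L 0)))
 (.N false 0 0 1 (.L 0)
 (.N true 0 1 0 (.N false 0 0 3 (.L 0)
 (.L 0))
 (.N false 0 0 3 (.L 0)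
 (.L 0))))))
 (.N true 0 1 0 (.N false 0 0 1 (.N true 3 0 3 (.N true 0 3 0 (.L 0)
 (.N false 0 1 0 (.L 0)
 (.L 0)))
 (.L 0))
 (.L 0))
 (.N false 0 0 1 (.N true 3 0 1 (.N false 0 1 0 (.L 0)
 (.L 0))
 (.N true 1 0 3 (.N false 0 1 0 (.L 0)
 (.L 0))
 (.L 0)))
 (.L 0))))))
 (.N true 3 0 1 (.N false 0 15 0 (.N false 0 31 0 (.N true 1 3 0 (.N true 0 1 0 (.L 0)
 (.N true 3 3 0 (.N true 0 0 1 (.L 0)
 (.L 0))
 (.L 0)))
 (.N true 0 0 3 (.L 0)
 (.L 0)))
 (.N true 0 1 0 (.L 0)
 (.L 0)))
 (.L 0))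
 (.N false 0 15 0 (.N true 0 3 0 (.N true 1 0 0 (.L 0)
 (.L 0))
 (.N true 0 0 1 (.N false 0 31 0 (.L 0)
 (.L 0))
 (.N false 0 31 0 (.L 0)
 (.L 0))))
 (.L 0))))
 (.N true 3 1 0 (.N true 0 0 1 (.L 0)
 (.N true 3 3 0 (.N false 0 0 1 (.N true 0 0 3 (.L 0)
 (.N true 3 7 0 (.N false 0 1 0 (.N true 0 0 7 (.L 0)
 (.N true 3 15 0 (.N false 0 3 0 (.N true 0 0 15 (.L 0)
 (.L 0))
 (.N true 0 0 15 (.L 0)
 (.L 0)))
 (.L 0)))
 (.L 0))
 (.L 0)))
 (.L 0))
 (.L 0)))
 (.L 0))))
 (.L 0))
 (.N false 0 3 0 (.N true 0 0 1 (.N false 0 7 0 (.N false 0 15 0 (.N true 0 1 0 (.L 0)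
 (.N false 0 31 0 (.L 0)
 (.L 0)))
 (.L 0))
 (.L 0))
 (.N false 0 7 0 (.N false 0 15 0 (.N true 0 0 3 (.N false 0 31 0 (.L 0)
 (.L 0))
 (.L 0))
 (.N true 0 0 3 (.N false 0 0 1 (.L 0)
 (.L 0))
 (.N true 3 0 2 (.N true 0 0 7 (.N true 0 1 0 (.N false 0 0 1 (.L 0)
 (.L 0))
 (.N false 0 0 1 (.L 0)
 (.L 0)))
 (.N true 3 1 0 (.N false 0 0 1 (.L 0)
 (.L 0))
 (.N false 0 0 1 (.L 0)
 (.L 0))))
 (.N false 0 0 1 (.L 0)
 (.L 0)))))
 (.N true 3 0 2 (.N true 0 0 3 (.L 0)
 (.N false 0 0 1 (.N true 3 1 0 (.N true 0 0 7 (.L 0)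
 (.N false 0 1 0 (.N true 0 0 15 (.L 0)
 (.N true 3 3 0 (.N false 0 3 0 (.L 0)
 (.L 0))
 (.L 0)))
 (.L 0)))
 (.L 0))
 (.L 0)))
 (.L 0))))
 (.N false 0 0 1 (.L 0)
 (.N false 0 0 3 (.L 0)
 (.N false 0 0 7 (.L 0)
 (.L 0))))))
 (.N false 0 3 0 (.N true 0 0 5 (.N true 3 0 5 (.N false 0 7 0 (.L 0)
 (.N true 0 1 0 (.N true 0 3 0 (.N false 0 0 1 (.N false 0 1 0 (.N true 3 0 1 (.N true 0 7 0 (.L 0)
 (.L 0))
 (.L 0))
 (.N true 3 0 1 (.N true 0 7 0 (.N false 0 0 1 (.N true 1 15 0 (.N true 0 15 0 (.L 0)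
 (.L 0))
 (.L 0))
 (.N true 1 15 0 (.N true 0 15 0 (.L 0)
 (.N false 0 0 3 (.L 0)
 (.L 0)))
 (.N false 0 0 3 (.L 0)
 (.L 0))))
 (.N true 1 0 0 (.N true 3 3 0 (.N false 0 0 1 (.L 0)
 (.N true 0 0 1 (.N true 1 3 0 (.N false 0 0 3 (.L 0)
 (.L 0))
 (.L 0))
 (.L 0)))
 (.N false 0 0 1 (.L 0)
 (.L 0)))
 (.L 0)))
 (.L 0)))
 (.N true 3 0 1 (.N true 0 7 0 (.L 0)
 (.N false 0 0 3 (.N true 3 1 0 (.N true 0 0 1 (.N false 0 1 0 (.N true 1 1 0 (.N true 0 1 0 (.L 0)
 (.N false 0 3 0 (.L 0)
 (.L 0)))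
 (.N true 0 0 1 (.L 0)
 (.N false 0 3 0 (.L 0)
 (.L 0))))
 (.L 0))
 (.N false 0 1 0 (.N false 0 3 0 (.L 0)
 (.N true 3 3 0 (.N true 0 0 3 (.L 0)
 (.L 0))
 (.L 0)))
 (.N true 3 3 0 (.N true 0 0 3 (.L 0)
 (.L 0))
 (.L 0))))
 (.L 0))
 (.L 0)))
 (.L 0)))
 (.N false 0 0 1 (.L 0)
 (.N true 3 0 0 (.N true 3 1 0 (.N false 0 0 3 (.N true 0 0 1 (.N true 1 1 0 (.N false 0 1 0 (.L 0)
 (.N true 0 1 0 (.L 0)
 (.L 0)))
 (.L 0))
 (.L 0))
 (.N true 0 0 1 (.N true 0 1 0 (.L 0)
 (.L 0))
 (.L 0)))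
 (.N false 0 0 3 (.N false 0 1 0 (.L 0)
 (.N true 0 1 0 (.L 0)
 (.L 0)))
 (.L 0)))
 (.N true 1 0 1 (.N false 0 0 3 (.N true 1 1 0 (.N true 1 3 0 (.N false 0 1 0 (.L 0)
 (.L 0))
 (.L 0))
 (.L 0))
 (.L 0))
 (.L 0)))))
 (.N true 1 0 0 (.L 0)
 (.L 0))))
 (.N false 0 7 0 (.N true 1 0 2 (.L 0)
 (.L 0))
 (.N true 1 0 2 (.N true 1 1 0 (.N false 0 0 1 (.N false 0 1 0 (.N true 1 3 0 (.N false 0 3 0 (.L 0)
 (.L 0))
 (.L 0))
 (.L 0))
 (.L 0))
 (.L 0))
 (.L 0))))
 (.L 0))
 (.N true 0 0 5 (.N true 3 0 5 (.N true 0 1 0 (.N false 0 0 1 (.N true 3 0 0 (.N true 0 3 0 (.L 0)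
 (.L 0))
 (.L 0))
 (.L 0))
 (.N false 0 0 1 (.N true 3 1 0 (.N false 0 1 0 (.L 0)
 (.L 0))
 (.N true 1 0 0 (.L 0)
 (.L 0)))
 (.L 0)))
 (.N false 0 0 1 (.L 0)
 (.N false 0 0 3 (.L 0)
 (.N true 1 0 2 (.L 0)
 (.N false 0 0 7 (.L 0)
 (.L 0))))))
 (.N true 3 1 0 (.N false 0 0 1 (.N false 0 1 0 (.L 0)
 (.N true 3 3 0 (.N false 0 0 1 (.L 0)
 (.N false 0 0 3 (.L 0)
 (.N true 0 0 11 (.L 0)
 (.N false 0 0 7 (.L 0)
 (.L 0)))))
 (.L 0)))
 (.L 0))
 (.N false 0 0 1 (.N true 1 0 5 (.L 0)
 (.L 0))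
 (.N false 0 0 3 (.L 0)
 (.N true 3 0 1 (.L 0)
 (.N false 0 0 7 (.L 0)
 (.N false 0 0 15 (.L 0)
 (.N true 3 0 3 (.L 0)
 (.N false 0 0 31 (.L 0)
 (.N true 3 0 7 (.N true 3 1 0 (.L 0)
 (.N false 0 0 63 (.L 0)
 (.L 0)))
 (.L 0)))))))))))))
 (.N true 0 0 2 (.L 0)
 (.N true 3 1 0 (.L 0)
 (.N true 3 0 1 (.L 0)
 (.N true 3 0 3 (.L 0)
 (.L 0))))))
 (.L 0)))
def c5B_ok : c5B.ok c5BG c5BH = true := by decide +kernel
def c5B_G_0 : (((leaves c5Bg (RB 1 0) R3 []).drop 0).take 12).all (leafOK s8 s8 c5BG []) = true := by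
  decide +kernel
def c5B_G_1 : (((leaves c5Bg (RB 1 0) R3 []).drop 12).take 12).all (leafOK s8 s8 c5BG []) = true := by
  decide +kernel
def c5B_G_2 : (((leaves c5Bg (RB 1 0) R3 []).drop 24).take 12).all (leafOK s8 s8 c5BG []) = true := by
  decide +kernel
def c5B_G_3 : (((leaves c5Bg (RB 1 0) R3 []).drop 36).take 12).all (leafOK s8 s8 c5BG []) = true := by
  decide +kernel
def c5B_G_4 : ((leaves c5Bg (RB 1 0) R3 []).drop 48).all (leafOK s8 s8 c5BG []) = true := by
  decide +kernel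
theorem c5B_G : ((leaves c5Bg (RB 1 0) R3 []).drop 0).all (leafOK s8 s8 c5BG []) = true :=
  chunk _ _ 0 12 c5B_G_0
    (chunk _ _ 12 12 c5B_G_1
    (chunk _ _ 24 12 c5B_G_2
    (chunk _ _ 36 12 c5B_G_3
    (c5B_G_4))))
def c5B_H_0 : (((leaves c5Bh (rZ 3) R3 []).drop 0).take 25).all (leafOK (sZ 10) s8 c5BH (mkCon 3 c5B.cc 0 1)) = true := by
  decide +kernel
def c5B_H_1 : (((leaves c5Bh (rZ 3) R3 []).drop 25).take 25).all (leafOK (sZ 10) s8 c5BH (mkCon 3 c5B.cc 0 1)) = true := by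
  decide +kernel
def c5B_H_2 : (((leaves c5Bh (rZ 3) R3 []).drop 50).take 25).all (leafOK (sZ 10) s8 c5BH (mkCon 3 c5B.cc 0 1)) = true := by
  decide +kernel
def c5B_H_3 : (((leaves c5Bh (rZ 3) R3 []).drop 75).take 25).all (leafOK (sZ 10) s8 c5BH (mkCon 3 c5B.cc 0 1)) = true := by
  decide +kernel
def c5B_H_4 : (((leaves c5Bh (rZ 3) R3 []).drop 100).take 25).all (leafOK (sZ 10) s8 c5BH (mkCon 3 c5B.cc 0 1)) = true := by
  decide +kernel
def c5B_H_5 : (((leaves c5Bh (rZ 3) R3 []).drop 125).take 25).all (leafOK (sZ 10) s8 c5BH (mkCon 3 c5B.cc 0 1)) = true := by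
  decide +kernel
def c5B_H_6 : (((leaves c5Bh (rZ 3) R3 []).drop 150).take 25).all (leafOK (sZ 10) s8 c5BH (mkCon 3 c5B.cc 0 1)) = true := by
  decide +kernel
def c5B_H_7 : (((leaves c5Bh (rZ 3) R3 []).drop 175).take 25).all (leafOK (sZ 10) s8 c5BH (mkCon 3 c5B.cc 0 1)) = true := by
  decide +kernel
def c5B_H_8 : (((leaves c5Bh (rZ 3) R3 []).drop 200).take 25).all (leafOK (sZ 10) s8 c5BH (mkCon 3 c5B.cc 0 1)) = true := by
  decide +kernel
def c5B_H_9 : (((leaves c5Bh (rZ 3) R3 []).drop 225).take 25).all (leafOK (sZ 10) s8 c5BH (mkCon 3 c5B.cc 0 1)) = true := by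
  decide +kernel
def c5B_H_10 : (((leaves c5Bh (rZ 3) R3 []).drop 250).take 25).all (leafOK (sZ 10) s8 c5BH (mkCon 3 c5B.cc 0 1)) = true := by
  decide +kernel
def c5B_H_11 : (((leaves c5Bh (rZ 3) R3 []).drop 275).take 25).all (leafOK (sZ 10) s8 c5BH (mkCon 3 c5B.cc 0 1)) = true := by
  decide +kernel
def c5B_H_12 : ((leaves c5Bh (rZ 3) R3 []).drop 300).all (leafOK (sZ 10) s8 c5BH (mkCon 3 c5B.cc 0 1)) = true := by
  decide +kernel
theorem c5B_H : ((leaves c5Bh (rZ 3) R3 []).drop 0).all (leafOK (sZ 10) s8 c5BH (mkCon 3 c5B.cc 0 1)) = true :=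
  chunk _ _ 0 25 c5B_H_0
    (chunk _ _ 25 25 c5B_H_1
    (chunk _ _ 50 25 c5B_H_2
    (chunk _ _ 75 25 c5B_H_3
    (chunk _ _ 100 25 c5B_H_4
    (chunk _ _ 125 25 c5B_H_5
    (chunk _ _ 150 25 c5B_H_6
    (chunk _ _ 175 25 c5B_H_7
    (chunk _ _ 200 25 c5B_H_8
    (chunk _ _ 225 25 c5B_H_9
    (chunk _ _ 250 25 c5B_H_10
    (chunk _ _ 275 25 c5B_H_11
    (c5B_H_12))))))))))))
theorem c5B_low : Low (1 / 2) (pol c5B.f) (pol c5B.g) (pol c5B.φ) (pol c5B.ψ) c5B.κ :=
  c5B.low c5B_ok (by norm_num) (by norm_num) c5B_G c5B_H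

def c5 : CD := ⟨c5P, c5A, c5B, 237740618, 164549962⟩
def c5C1 : ((leaves (.L 0) (rL 10 4 5) R3 []).drop 0).all
    (leafOK (sZ 6) s8 (mkC c5.P.g [] c5.P.f 0) []) = true := by
  decide +kernel
def c5C2 : ((leaves (.L 0) (rL 10 4 5) R3 []).drop 0).all
    (leafOK (sZ 6) s8 (mkC c5.A.g c5.B.g c5.B.f c5.g1) []) = true := by
  decide +kernel
def c5C3 : ((leaves (.N true 3 1 0 (.N true 0 0 2 (.L 0)
 (.L 0))
 (.L 0)) (rL 10 4 5) R3 []).drop 0).all
    (leafOK (sZ 6) s8 (mkC c5.P.ψ c5.B.g c5.B.f c5.g2) []) = true := by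
  decide +kernel
theorem c5_cert : Nonempty (CertS (2 / 5) (1 / 2) (4 / 25) (1 / 2) (1 / 3) (1 / 4)) :=
  c5.cert (m0 := 15100) (m1 := 10000) (k0 := 10100) (by norm_num) (by norm_num) (by norm_num)
    (by decide) (by decide) z50a_low z50b_low c5P_low c5A_low c5B_low
    (chan_of (by norm_num) (by norm_num) (by norm_num) (by norm_num) c5C1)
    (chan_of (by norm_num) (by norm_num) (by norm_num) (by norm_num) c5C2)
    (chan_of (by norm_num) (by norm_num) (by norm_num) (by norm_num) c5C3)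
    (by norm_num [c5, c5A, c5B]) (by norm_num [c5, c5A, c5B])

end Vale.Agent.P154.AF
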