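import Vale.Agent.P154.Mk

set_option linter.defProp false

namespace Vale.Agent.P154.AF

def E8 : List (W4 ℕ) := [⟨8, 0, 0, 0⟩, ⟨6, 1, 0, 0⟩, ⟨4, 2, 0, 0⟩, ⟨2, 3, 0, 0⟩, ⟨0, 4, 0, 0⟩, ⟨5, 0, 1, 0⟩,
  ⟨3, 1, 1, 0⟩, ⟨1, 2, 1, 0⟩, ⟨2, 0, 2, 0⟩, ⟨0, 1, 2, 0⟩]
def s8 : Side := ⟨true, 8, E8⟩
def tab8 : List Tm := [
  ⟨⟨0, 0, 0, 0⟩, 1, [6, 0, 0, 0, 0, 0, 0, 0, 0, 0]⟩,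
  ⟨⟨1, 0, 0, 0⟩, 1, [2, 0, 0, 0, 0, 0, 0, 0, 0, 0]⟩,
  ⟨⟨1, 1, 0, 0⟩, 1, [1, -1, 0, 0, 0, 0, 0, 0, 0, 0]⟩,
  ⟨⟨2, 0, 0, 0⟩, 1, [0, 2, 0, 0, 0, 0, 0, 0, 0, 0]⟩,
  ⟨⟨1, 1, 1, 0⟩, 1, [1, -3, 0, 0, 0, 2, 0, 0, 0, 0]⟩,
  ⟨⟨2, 1, 0, 0⟩, 1, [0, 1, 0, 0, 0, -1, 0, 0, 0, 0]⟩,
  ⟨⟨3, 0, 0, 0⟩, 1, [0, 0, 0, 0, 0, 2, 0, 0, 0, 0]⟩,
  ⟨⟨2, 1, 1, 0⟩, 3, [1, -3, 0, 0, 0, 2, 0, 0, 0, 0]⟩,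
  ⟨⟨2, 2, 0, 0⟩, 6, [-1, 6, 3, 0, 0, -8, 0, 0, 0, 0]⟩,
  ⟨⟨3, 1, 0, 0⟩, 6, [-1, 6, -3, 0, 0, -2, 0, 0, 0, 0]⟩,
  ⟨⟨4, 0, 0, 0⟩, 3, [1, -6, 3, 0, 0, 8, 0, 0, 0, 0]⟩,
  ⟨⟨2, 2, 1, 0⟩, 6, [1, -4, 3, 0, 0, 2, -2, 0, 0, 0]⟩,
  ⟨⟨3, 1, 1, 0⟩, 3, [0, 1, -3, 0, 0, 0, 2, 0, 0, 0]⟩,
  ⟨⟨3, 2, 0, 0⟩, 6, [-1, 5, 0, 0, 0, -5, 1, 0, 0, 0]⟩,
  ⟨⟨4, 1, 0, 0⟩, 6, [0, -1, 3, 0, 0, 3, -5, 0, 0, 0]⟩,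
  ⟨⟨5, 0, 0, 0⟩, 3, [1, -5, 0, 0, 0, 5, 5, 0, 0, 0]⟩,
  ⟨⟨2, 2, 2, 0⟩, 6, [1, -6, 9, 0, 0, 4, -12, 0, 4, 0]⟩,
  ⟨⟨3, 2, 1, 0⟩, 6, [0, 1, -3, 0, 0, -1, 5, 0, -2, 0]⟩,
  ⟨⟨3, 3, 0, 0⟩, 12, [-1, 3, 9, -3, 0, -4, -12, 0, 8, 0]⟩,
  ⟨⟨4, 1, 1, 0⟩, 3, [0, 0, 0, 0, 0, 1, -3, 0, 2, 0]⟩,
  ⟨⟨4, 2, 0, 0⟩, 12, [-1, 5, -3, 3, 0, -4, 4, 0, -4, 0]⟩,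
  ⟨⟨5, 1, 0, 0⟩, 12, [1, -7, 9, -3, 0, 6, -2, 0, -4, 0]⟩,
  ⟨⟨6, 0, 0, 0⟩, 6, [1, -3, -9, 3, 0, 4, 12, 0, 4, 0]⟩,
  ⟨⟨3, 2, 2, 0⟩, 18, [1, -6, 9, 0, 0, 4, -12, 0, 4, 0]⟩,
  ⟨⟨3, 3, 1, 0⟩, 36, [-1, 9, -15, -9, 0, -10, 36, 6, -16, 0]⟩,
  ⟨⟨4, 2, 1, 0⟩, 36, [-1, 9, -21, 9, 0, -4, 18, -6, -4, 0]⟩,
  ⟨⟨4, 3, 0, 0⟩, 36, [-1, 0, 21, 0, 0, -1, -36, -3, 20, 0]⟩,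
  ⟨⟨5, 1, 1, 0⟩, 18, [1, -9, 21, -9, 0, 10, -36, 6, 16, 0]⟩,
  ⟨⟨5, 2, 0, 0⟩, 36, [-1, 6, -9, 0, 0, -7, 30, 9, -28, 0]⟩,
  ⟨⟨6, 1, 0, 0⟩, 36, [2, -9, -6, 9, 0, 5, 36, -21, -16, 0]⟩,
  ⟨⟨7, 0, 0, 0⟩, 18, [1, 0, -21, 0, 0, 7, 0, 21, 28, 0]⟩,
  ⟨⟨3, 3, 2, 0⟩, 36, [1, -7, 15, -9, 0, 4, -16, 12, 4, -4]⟩,
  ⟨⟨4, 2, 2, 0⟩, 18, [0, 1, -6, 9, 0, 0, 4, -12, 0, 4]⟩,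
  ⟨⟨4, 3, 1, 0⟩, 36, [-1, 8, -15, 0, 0, -7, 26, -3, -10, 2]⟩,
  ⟨⟨4, 4, 0, 0⟩, 72, [1, -20, 78, -36, 9, 16, -128, 48, 64, -32]⟩,
  ⟨⟨5, 2, 1, 0⟩, 36, [0, -1, 6, -9, 0, 3, -16, 21, 6, -10]⟩,
  ⟨⟨5, 3, 0, 0⟩, 72, [-1, 4, -6, 36, -9, -4, 4, -48, -4, 28]⟩,
  ⟨⟨6, 1, 1, 0⟩, 18, [1, -8, 15, 0, 0, 7, -20, -15, 10, 10]⟩,
  ⟨⟨6, 2, 0, 0⟩, 72, [-1, 10, -24, -18, 9, -16, 88, 24, -64, -8]⟩,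
  ⟨⟨7, 1, 0, 0⟩, 72, [1, 4, -48, 36, -9, -2, 64, -6, -8, -32]⟩,
  ⟨⟨8, 0, 0, 0⟩, 36, [1, -4, 6, -36, 9, 16, -64, 48, 64, 32]⟩]
def VD : List (List ℤ × ℕ) := [
  ([-1, 3, 0, 0, 0, 0, 0, 0, 0, 0], 0),
  ([2, -9, 0, 0, 0, 9, 0, 0, 0, 0], 1),
  ([1, -6, 9, 0, 0, 0, 0, 0, 0, 0], 2),
  ([-2, 15, -27, 0, 0, -9, 27, 0, 0, 0], 3),
  ([4, -36, 81, 0, 0, 36, -162, 0, 81, 0], 4),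
  ([-1, 9, -27, 27, 0, 0, 0, 0, 0, 0], 4),
  ([2, -21, 72, -81, 0, 9, -54, 81, 0, 0], 5),
  ([-4, 48, -189, 243, 0, -36, 270, -486, -81, 243], 6),
  ([1, -12, 54, -108, 81, 0, 0, 0, 0, 0], 6)]
def tab8_ok_0 : (((tab8).drop 0).take 6).all (fun τ => idOK pm3 s8 I3 96 τ && (τ.lam.d == 0)) = true := by
  decide +kernel
def tab8_ok_1 : (((tab8).drop 6).take 6).all (fun τ => idOK pm3 s8 I3 96 τ && (τ.lam.d == 0)) = true := by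
  decide +kernel
def tab8_ok_2 : (((tab8).drop 12).take 6).all (fun τ => idOK pm3 s8 I3 96 τ && (τ.lam.d == 0)) = true := by
  decide +kernel
def tab8_ok_3 : (((tab8).drop 18).take 6).all (fun τ => idOK pm3 s8 I3 96 τ && (τ.lam.d == 0)) = true := by
  decide +kernel
def tab8_ok_4 : (((tab8).drop 24).take 6).all (fun τ => idOK pm3 s8 I3 96 τ && (τ.lam.d == 0)) = true := by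
  decide +kernel
def tab8_ok_5 : (((tab8).drop 30).take 6).all (fun τ => idOK pm3 s8 I3 96 τ && (τ.lam.d == 0)) = true := by
  decide +kernel
def tab8_ok_6 : ((tab8).drop 36).all (fun τ => idOK pm3 s8 I3 96 τ && (τ.lam.d == 0)) = true := by
  decide +kernel
theorem tab8_ok : ((tab8).drop 0).all (fun τ => idOK pm3 s8 I3 96 τ && (τ.lam.d == 0)) = true :=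
  chunk _ _ 0 6 tab8_ok_0
    (chunk _ _ 6 6 tab8_ok_1
    (chunk _ _ 12 6 tab8_ok_2
    (chunk _ _ 18 6 tab8_ok_3
    (chunk _ _ 24 6 tab8_ok_4
    (chunk _ _ 30 6 tab8_ok_5
    (tab8_ok_6))))))

end Vale.Agent.P154.AF
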