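import Vale.Agent.P154.AF.FNg
import Vale.Agent.P154.AF.Cell

namespace Vale.Agent.P154.AF.Ck

def q1 (w : TM) : TM := mul (cst 1) w
def q2 (w : TM) : TM := mul (q1 w) w
def q3 (w : TM) : TM := mul (q2 w) w
def q4 (w : TM) : TM := mul (q3 w) w
def q5 (w : TM) : TM := mul (q4 w) w
def q6 (w : TM) : TM := mul (q5 w) w
def q7 (w : TM) : TM := mul (q6 w) w
def q8 (w : TM) : TM := mul (q7 w) w
def q9 (w : TM) : TM := mul (q8 w) w
def q10 (w : TM) : TM := mul (q9 w) w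
def q11 (w : TM) : TM := mul (q10 w) w
def q12 (w : TM) : TM := mul (q11 w) w
def t0 : TM := add (add (cst 1) (cst 1)) (cst 1)
def t1 (a b c : TM) : TM := add (add (q1 a) (q1 b)) (q1 c)
def t2 (a b c : TM) : TM := add (add (q2 a) (q2 b)) (q2 c)
def t3 (a b c : TM) : TM := add (add (q3 a) (q3 b)) (q3 c)
def t4 (a b c : TM) : TM := add (add (q4 a) (q4 b)) (q4 c)
def t5 (a b c : TM) : TM := add (add (q5 a) (q5 b)) (q5 c)
def t6 (a b c : TM) : TM := add (add (q6 a) (q6 b)) (q6 c)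
def t7 (a b c : TM) : TM := add (add (q7 a) (q7 b)) (q7 c)
def t8 (a b c : TM) : TM := add (add (q8 a) (q8 b)) (q8 c)
def t9 (a b c : TM) : TM := add (add (q9 a) (q9 b)) (q9 c)
def t10 (a b c : TM) : TM := add (add (q10 a) (q10 b)) (q10 c)
def t11 (a b c : TM) : TM := add (add (q11 a) (q11 b)) (q11 c)
def t12 (a b c : TM) : TM := add (add (q12 a) (q12 b)) (q12 c)
def n1 (m e : TM) : TM := mul m e
def n2 (m e : TM) : TM := mul (n1 m e) e
def n3 (m e : TM) : TM := mul (n2 m e) e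
def n4 (m e : TM) : TM := mul (n3 m e) e

def pt1 (a b c m e : TM) (l : List TM) : List TM :=
  mul m (sub (mul (t6 a b c) (t6 a b c)) (t12 a b c)) ::
  mul m (sub (mul (t4 a b c) (t8 a b c)) (t12 a b c)) ::
  mul m (sub (mul (t3 a b c) (t9 a b c)) (t12 a b c)) ::
  mul m (sub (mul (t2 a b c) (t10 a b c)) (t12 a b c)) ::
  mul m (sub (mul (t1 a b c) (t11 a b c)) (t12 a b c)) ::
  mul (n4 m e) (sub (mul t0 t0) t0) ::
  mul (n3 m e) (sub (mul t0 (t3 a b c)) (t3 a b c)) ::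
  mul (n2 m e) (sub (mul t0 (t6 a b c)) (t6 a b c)) ::
  mul (n1 m e) (sub (mul t0 (t9 a b c)) (t9 a b c)) ::
  mul (n2 m e) (sub (mul (t2 a b c) (t4 a b c)) (t6 a b c)) ::
  mul (n1 m e) (sub (mul (t3 a b c) (t6 a b c)) (t9 a b c)) ::
  mul (n1 m e) (sub (mul (t1 a b c) (t8 a b c)) (t9 a b c)) :: l

def pt2 (a b c m : TM) (l : List TM) : List TM := pt1 a b c m (mul (mul a b) c) l

def tw (a : TM) : TM := mul (mul a a) a
def tx (a : TM) : TM := mul (tw a) (tw a)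
def ty (a : TM) : TM := mul (tx a) (tx a)

noncomputable def w0F (ln r : ℕ) (sg m3 : TM) : TM :=
  Bool.rec (root r (2 ^ 57) (bt ln m3 (cst (2 ^ 312))))
    (mul sg (root r (2 ^ 44) (cst (3 * 2 ^ 527)))) (Nat.beq ln 524288)

noncomputable def cl3 (ln r : ℕ) (sg xi x m3 a1 a2 : TM) : List TM :=
  pt2 (cst (2 ^ 57)) (mul sg (root r (2 ^ 44) (sm (2 ^ 372) (sub (cst (2 ^ 156)) x))))
    (sm (2 ^ 31) (mul sg xi)) m3
    (pt2 (w0F ln r sg m3) (root r (2 ^ 57) (bt ln m3 a1)) (root r (2 ^ 57) (bt ln m3 a2)) m3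
      [sm (2 ^ 216) (add (add (cst (2 ^ 624)) (mul a1 a1)) (mul a2 a2)), sm (2 ^ 528) (mul m3 m3)])

noncomputable def cl2 (ln r : ℕ) (sg xi s x a2 : TM) : List TM :=
  cl3 ln r sg xi x (add (cst (2 ^ 156)) s) (sub (sm (2 ^ 156) s) a2) a2

noncomputable def cl1 (ln r : ℕ) (sg xi : TM) : List TM :=
  cl2 ln r sg xi (ty sg) (ty xi) (mul (ty sg) (ty xi))

noncomputable def cellF (ln r s0 s1 x0 x1 : ℕ) (k : List TM → Bool) : Bool :=
  k (cl1 ln r (add (cst (Nat.add s0 s1)) (sm (Nat.sub s1 s0) (mon r 1 0)))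
    (add (cst (Nat.add x0 x1)) (sm (Nat.sub x1 x0) (mon r 0 1))))

namespace FCellm

open Cellm

theorem pt_eq (a b c m : TM) (l : List TM) : partL a b c m ++ l = pt2 a b c m l := by
  simp only [partL, KS, List.map_cons, List.map_nil, out1, meL, pwsL, List.getD_cons_succ,
    List.getD_cons_zero, List.cons_append, List.nil_append, Nat.reduceAdd, pt2, pt1,
    q1, q2, q3, q4, q5, q6, q7, q8, q9, q10, q11, q12, t0, t1, t2, t3, t4, t5, t6, t7, t8, t9,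
    t10, t11, t12, n1, n2, n3, n4]

theorem ty_eq (a : TM) : p12v a = ty a := by simp only [p12v, ty, tx, tw]

theorem w0_eq (ln r : ℕ) (sg m3 : TM) :
    (if ln = 2 ^ 19 then mul sg (root r (if ln = 2 ^ 19 then 2 ^ 44 else 2 ^ 57)
      (if ln = 2 ^ 19 then cst (3 * 2 ^ 527) else bt ln m3 (cst (2 ^ 312))))
    else root r (if ln = 2 ^ 19 then 2 ^ 44 else 2 ^ 57)
      (if ln = 2 ^ 19 then cst (3 * 2 ^ 527) else bt ln m3 (cst (2 ^ 312)))) = w0F ln r sg m3 := by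
  unfold w0F
  rw [show (2 : ℕ) ^ 19 = 524288 by norm_num]
  by_cases h : ln = 524288
  · rw [if_pos h, if_pos h, if_pos h, h, Nat.beq_refl]
  · rw [if_neg h, if_neg h, if_neg h]
    cases hb : Nat.beq ln 524288
    · rfl
    · exact absurd (Nat.eq_of_beq_eq_true hb) h

end FCellm

open FCellm Cellm

theorem cellF_eq (ln r s0 s1 x0 x1 : ℕ) (k : List TM → Bool) :
    cellF ln r s0 s1 x0 x1 k = cell ln r s0 s1 x0 x1 k := by
  unfold cell
  simp only [fT_eq, p12_eq, part_eq, w0_eq]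
  rw [pt_eq, pt_eq]
  simp only [ty_eq]
  unfold cellF cl1 cl2 cl3
  rw [Nat.add_eq, Nat.add_eq, Nat.sub_eq, Nat.sub_eq]

noncomputable def chkM (ln E : ℕ) (pool : List ℕ) (t : KT) (s0 s1 x0 x1 : ℕ) : Bool :=
  chkG (cellF ln) (FNg.n0 E pool) E t s0 s1 x0 x1

theorem chkM_eq (ln E : ℕ) (pool : List ℕ) (t : KT) (s0 s1 x0 x1 : ℕ) :
    chkM ln E pool t s0 s1 x0 x1 = chkP ln E pool t s0 s1 x0 x1 :=
  chkG_eq _ _ ln E pool (cellF_eq ln) (n0_eq E pool) t s0 s1 x0 x1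

end Vale.Agent.P154.AF.Ck
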