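import Vale.Agent.P154.AF.Fast
import Vale.Agent.P154.AF.Neg

namespace Vale.Agent.P154.AF.Ck

open Finset

namespace FNg

def sA (d0 d1 d2 d3 d4 d5 d6 d7 d8 d9 d10 d11 d12 d13 d14 d15 d16 d17 d18 d19 d20 d21 d22 d23 d24 d25 : ℕ) : ℕ :=
  Nat.add (Nat.mul 3 (Nat.add (Nat.add (Nat.sub d0 9223372036854775808) (Nat.sub 9223372036854775808 d0)) (Nat.add (Nat.add (Nat.sub d1 9223372036854775808) (Nat.sub 9223372036854775808 d1)) (Nat.add (Nat.add (Nat.sub d2 9223372036854775808) (Nat.sub 9223372036854775808 d2)) (Nat.add (Nat.add (Nat.sub d3 9223372036854775808) (Nat.sub 9223372036854775808 d3)) (Nat.add (Nat.add (Nat.sub d4 9223372036854775808) (Nat.sub 9223372036854775808 d4)) (Nat.add (Nat.add (Nat.sub d5 9223372036854775808) (Nat.sub 9223372036854775808 d5)) (Nat.add (Nat.add (Nat.sub d6 9223372036854775808) (Nat.sub 9223372036854775808 d6)) (Nat.add (Nat.add (Nat.sub d7 9223372036854775808)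 (Nat.sub 9223372036854775808 d7)) (Nat.add (Nat.add (Nat.sub d8 9223372036854775808) (Nat.sub 9223372036854775808 d8)) (Nat.add (Nat.add (Nat.sub d9 9223372036854775808) (Nat.sub 9223372036854775808 d9)) (Nat.add (Nat.add (Nat.sub d10 9223372036854775808) (Nat.sub 9223372036854775808 d10)) (Nat.add (Nat.sub d11 9223372036854775808) (Nat.sub 9223372036854775808 d11)))))))))))))) (Nat.add (Nat.add (Nat.sub d12 9223372036854775808) (Nat.sub 9223372036854775808 d12)) (Nat.add (Nat.add (Nat.sub d13 9223372036854775808) (Nat.sub 9223372036854775808 d13)) (Nat.add (Nat.add (Nat.sub d14 9223372036854775808) (Nat.sub 9223372036854775808 d14)) (Nat.add (Nat.add (Nat.sub d15 9223372036854775808) (Nat.sub 9223372036854775808 d15)) (Nat.add (Nat.add (Nat.sub d16 9223372036854775808) (Nat.sub 9223372036854775808 d16)) (Nat.add (Nat.add (Nat.sub d17 9223372036854775808) (Nat.sub 9223372036854775808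 d17)) (Nat.add (Nat.add (Nat.sub d18 9223372036854775808) (Nat.sub 9223372036854775808 d18)) (Nat.add (Nat.add (Nat.sub d19 9223372036854775808) (Nat.sub 9223372036854775808 d19)) (Nat.add (Nat.add (Nat.sub d20 9223372036854775808) (Nat.sub 9223372036854775808 d20)) (Nat.add (Nat.add (Nat.sub d21 9223372036854775808) (Nat.sub 9223372036854775808 d21)) (Nat.add (Nat.add (Nat.sub d22 9223372036854775808) (Nat.sub 9223372036854775808 d22)) (Nat.add (Nat.add (Nat.sub d23 9223372036854775808) (Nat.sub 9223372036854775808 d23)) (Nat.add (Nat.mul 18 (Nat.add (Nat.sub d24 9223372036854775808) (Nat.sub 9223372036854775808 d24))) (Nat.mul 6 (Nat.add (Nat.sub (Nat.add d24 d25) 18446744073709551616) (Nat.sub 18446744073709551616 (Nat.add d24 d25)))))))))))))))))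

def vA (e o A0 a0 a1 a2 a3 a4 a5 a6 a7 a8 a9 a10 a11 a12 a13 a14 a15 a16 a17 a18 a19 a20 a21 a22 a23 a24 sa d0 d1 d2 d3 d4 d5 d6 d7 d8 d9 d10 d11 d12 d13 d14 d15 d16 d17 d18 d19 d20 d21 d22 d23 d24 d25 : ℕ) : ℕ :=
  Nat.add (Nat.mul d0 a0) (Nat.add (Nat.mul d1 a1) (Nat.add (Nat.mul d2 a2) (Nat.add (Nat.mul d3 a3) (Nat.add (Nat.mul d4 a4) (Nat.add (Nat.mul d5 a5) (Nat.add (Nat.mul d6 a6) (Nat.add (Nat.mul d7 a7) (Nat.add (Nat.mul d8 a8) (Nat.add (Nat.mul d9 a9) (Nat.add (Nat.mul d10 a10) (Nat.add (Nat.mul d11 a11) (Nat.add (Nat.mul d12 a12) (Nat.add (Nat.mul d13 a13) (Nat.add (Nat.mul d14 a14) (Nat.add (Nat.mul d15 a15) (Nat.add (Nat.mul d16 a16) (Nat.add (Nat.mul d17 a17) (Nat.add (Nat.mul d18 a18) (Nat.add (Nat.mul d19 a19) (Nat.add (Nat.mul d20 a20) (Nat.add (Nat.mul d21 a21) (Nat.add (Nat.mul d22 a22) (Nat.add (Nat.mul d23 a23) (Nat.add (Nat.mul d24 a24) (Nat.add A0 (Nat.mul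 (Nat.add 2408480651582490759755089305133326758529990655 (Nat.add (Nat.mul sa e) (Nat.mul 29014219670751100192948224 d25))) o))))))))))))))))))))))))))

def vB (o b B0 d0 d1 d2 d3 d4 d5 d6 d7 d8 d9 d10 d11 d12 d13 d14 d15 d16 d17 d18 d19 d20 d21 d22 d23 d24 d25 : ℕ) : ℕ :=
  Nat.add (Nat.mul (Nat.add d24 d25) b) (Nat.add B0 (Nat.mul (Nat.mul 4835703278458516698824704 (Nat.add (Nat.mul 3 (Nat.add d0 (Nat.add d1 (Nat.add d2 (Nat.add d3 (Nat.add d4 (Nat.add d5 (Nat.add d6 (Nat.add d7 (Nat.add d8 (Nat.add d9 (Nat.add d10 d11)))))))))))) (Nat.add d12 (Nat.add d13 (Nat.add d14 (Nat.add d15 (Nat.add d16 (Nat.add d17 (Nat.add d18 (Nat.add d19 (Nat.add d20 (Nat.add d21 (Nat.add d22 (Nat.add d23 (Nat.mul 12 d24))))))))))))))) o))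

def n3 (e o mk A0 b B0 a0 a1 a2 a3 a4 a5 a6 a7 a8 a9 a10 a11 a12 a13 a14 a15 a16 a17 a18 a19 a20 a21 a22 a23 a24 d0 d1 d2 d3 d4 d5 d6 d7 d8 d9 d10 d11 d12 d13 d14 d15 d16 d17 d18 d19 d20 d21 d22 d23 d24 d25 sa : ℕ) : Bool :=
  and (Nat.ble sa 17592186044415) (and (Nat.ble (Nat.mul sa e) 85070591730234615865843651857942052863)
    (Nat.beq (Nat.land (Nat.sub (Nat.add (Nat.mul d0 a0) (Nat.add (Nat.mul d1 a1) (Nat.add (Nat.mul d2 a2) (Nat.add (Nat.mul d3 a3) (Nat.add (Nat.mul d4 a4) (Nat.add (Nat.mul d5 a5) (Nat.add (Nat.mul d6 a6) (Nat.add (Nat.mul d7 a7) (Nat.add (Nat.mul d8 a8) (Nat.add (Nat.mul d9 a9) (Nat.add (Nat.mul d10 a10) (Nat.add (Nat.mul d11 a11) (Nat.add (Nat.mul d12 a12) (Nat.add (Nat.mul d13 a13) (Nat.add (Nat.mul d14 a14) (Nat.add (Nat.mul d15 a15) (Nat.add (Nat.mul d16 a16) (Nat.add (Nat.mul d17 a17) (Nat.add (Nat.mul d18 a18) (Nat.add (Nat.mul d19 a19) (Nat.add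 (Nat.mul d20 a20) (Nat.add (Nat.mul d21 a21) (Nat.add (Nat.mul d22 a22) (Nat.add (Nat.mul d23 a23) (Nat.add (Nat.mul d24 a24) (Nat.add A0 (Nat.mul (Nat.add 2408480651582490759755089305133326758529990655 (Nat.add (Nat.mul sa e) (Nat.mul 29014219670751100192948224 d25))) o))))))))))))))))))))))))))) (Nat.add (Nat.mul (Nat.add d24 d25) b) (Nat.add B0 (Nat.mul (Nat.mul 4835703278458516698824704 (Nat.add (Nat.mul 3 (Nat.add d0 (Nat.add d1 (Nat.add d2 (Nat.add d3 (Nat.add d4 (Nat.add d5 (Nat.add d6 (Nat.add d7 (Nat.add d8 (Nat.add d9 (Nat.add d10 d11)))))))))))) (Nat.add d12 (Nat.add d13 (Nat.add d14 (Nat.add d15 (Nat.add d16 (Nat.add d17 (Nat.add d18 (Nat.add d19 (Nat.add d20 (Nat.add d21 (Nat.add d22 (Nat.add d23 (Nat.mul 12 d24))))))))))))))) o)))) mk) 0))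

def n2 (e o mk A0 b B0 a0 a1 a2 a3 a4 a5 a6 a7 a8 a9 a10 a11 a12 a13 a14 a15 a16 a17 a18 a19 a20 a21 a22 a23 a24 d0 d1 d2 d3 d4 d5 d6 d7 d8 d9 d10 d11 d12 d13 d14 d15 d16 d17 d18 d19 d20 d21 d22 d23 d24 d25 : ℕ) : Bool :=
  n3 e o mk A0 b B0 a0 a1 a2 a3 a4 a5 a6 a7 a8 a9 a10 a11 a12 a13 a14 a15 a16 a17 a18 a19 a20 a21 a22 a23 a24 d0 d1 d2 d3 d4 d5 d6 d7 d8 d9 d10 d11 d12 d13 d14 d15 d16 d17 d18 d19 d20 d21 d22 d23 d24 d25 (Nat.add (Nat.mul 3 (Nat.add (Nat.add (Nat.sub d0 9223372036854775808) (Nat.sub 9223372036854775808 d0)) (Nat.add (Nat.add (Nat.sub d1 9223372036854775808) (Nat.sub 9223372036854775808 d1)) (Nat.add (Nat.add (Nat.sub d2 9223372036854775808) (Nat.sub 9223372036854775808 d2)) (Nat.add (Nat.add (Nat.sub d3 9223372036854775808) (Nat.sub 9223372036854775808 d3)) (Nat.add (Nat.add (Nat.sub d4 9223372036854775808) (Nat.sub 9223372036854775808 d4)) (Nat.add (Nat.add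 (Nat.sub d5 9223372036854775808) (Nat.sub 9223372036854775808 d5)) (Nat.add (Nat.add (Nat.sub d6 9223372036854775808) (Nat.sub 9223372036854775808 d6)) (Nat.add (Nat.add (Nat.sub d7 9223372036854775808) (Nat.sub 9223372036854775808 d7)) (Nat.add (Nat.add (Nat.sub d8 9223372036854775808) (Nat.sub 9223372036854775808 d8)) (Nat.add (Nat.add (Nat.sub d9 9223372036854775808) (Nat.sub 9223372036854775808 d9)) (Nat.add (Nat.add (Nat.sub d10 9223372036854775808) (Nat.sub 9223372036854775808 d10)) (Nat.add (Nat.sub d11 9223372036854775808) (Nat.sub 9223372036854775808 d11)))))))))))))) (Nat.add (Nat.add (Nat.sub d12 9223372036854775808) (Nat.sub 9223372036854775808 d12)) (Nat.add (Nat.add (Nat.sub d13 9223372036854775808) (Nat.sub 9223372036854775808 d13)) (Nat.add (Nat.add (Nat.sub d14 9223372036854775808) (Nat.sub 9223372036854775808 d14)) (Nat.add (Nat.add (Nat.sub d15 9223372036854775808)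 (Nat.sub 9223372036854775808 d15)) (Nat.add (Nat.add (Nat.sub d16 9223372036854775808) (Nat.sub 9223372036854775808 d16)) (Nat.add (Nat.add (Nat.sub d17 9223372036854775808) (Nat.sub 9223372036854775808 d17)) (Nat.add (Nat.add (Nat.sub d18 9223372036854775808) (Nat.sub 9223372036854775808 d18)) (Nat.add (Nat.add (Nat.sub d19 9223372036854775808) (Nat.sub 9223372036854775808 d19)) (Nat.add (Nat.add (Nat.sub d20 9223372036854775808) (Nat.sub 9223372036854775808 d20)) (Nat.add (Nat.add (Nat.sub d21 9223372036854775808) (Nat.sub 9223372036854775808 d21)) (Nat.add (Nat.add (Nat.sub d22 9223372036854775808) (Nat.sub 9223372036854775808 d22)) (Nat.add (Nat.add (Nat.sub d23 9223372036854775808) (Nat.sub 9223372036854775808 d23)) (Nat.add (Nat.mul 18 (Nat.add (Nat.sub d24 9223372036854775808) (Nat.sub 9223372036854775808 d24))) (Nat.mul 6 (Nat.add (Nat.sub (Nat.add d24 d25) 18446744073709551616)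 (Nat.sub 18446744073709551616 (Nat.add d24 d25))))))))))))))))))

def n1 (e o mk A0 b B0 a0 a1 a2 a3 a4 a5 a6 a7 a8 a9 a10 a11 a12 a13 a14 a15 a16 a17 a18 a19 a20 a21 a22 a23 a24 c : ℕ) : Bool :=
  n2 e o mk A0 b B0 a0 a1 a2 a3 a4 a5 a6 a7 a8 a9 a10 a11 a12 a13 a14 a15 a16 a17 a18 a19 a20 a21 a22 a23 a24 (Nat.land (Nat.shiftRight c 0) 18446744073709551615) (Nat.land (Nat.shiftRight c 64) 18446744073709551615) (Nat.land (Nat.shiftRight c 128) 18446744073709551615) (Nat.land (Nat.shiftRight c 192) 18446744073709551615) (Nat.land (Nat.shiftRight c 256) 18446744073709551615) (Nat.land (Nat.shiftRight c 320) 18446744073709551615) (Nat.land (Nat.shiftRight c 384) 18446744073709551615) (Nat.land (Nat.shiftRight c 448) 18446744073709551615) (Nat.land (Nat.shiftRight c 512) 18446744073709551615) (Nat.land (Nat.shiftRight c 576) 18446744073709551615) (Nat.land (Nat.shiftRight c 640) 18446744073709551615)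 (Nat.land (Nat.shiftRight c 704) 18446744073709551615) (Nat.land (Nat.shiftRight c 768) 18446744073709551615) (Nat.land (Nat.shiftRight c 832) 18446744073709551615) (Nat.land (Nat.shiftRight c 896) 18446744073709551615) (Nat.land (Nat.shiftRight c 960) 18446744073709551615) (Nat.land (Nat.shiftRight c 1024) 18446744073709551615) (Nat.land (Nat.shiftRight c 1088) 18446744073709551615) (Nat.land (Nat.shiftRight c 1152) 18446744073709551615) (Nat.land (Nat.shiftRight c 1216) 18446744073709551615) (Nat.land (Nat.shiftRight c 1280) 18446744073709551615) (Nat.land (Nat.shiftRight c 1344) 18446744073709551615) (Nat.land (Nat.shiftRight c 1408) 18446744073709551615) (Nat.land (Nat.shiftRight c 1472) 18446744073709551615) (Nat.land (Nat.shiftRight c 1536) 18446744073709551615) (Nat.land (Nat.shiftRight c 1600) 18446744073709551615)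

noncomputable def allF (f : ℕ → Bool) (l : List ℕ) : Bool :=
  List.rec true (fun c _ r => and (f c) r) l

theorem allF_eq (f : ℕ → Bool) (l : List ℕ) : allF f l = l.all f := by
  induction l with
  | nil => rfl
  | cons c l ih => rw [List.all_cons, ← ih]; rfl

noncomputable def n0 (E : ℕ) (pool : List ℕ) (o mk : ℕ) (Tb : List ℕ) : Bool :=
  frc (11025 * (E + 36)) fun e =>
  frc (3 * Tb.getD 0 0) fun a0 =>
  frc (3 * Tb.getD 1 0) fun a1 =>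
  frc (3 * Tb.getD 2 0) fun a2 =>
  frc (3 * Tb.getD 3 0) fun a3 =>
  frc (3 * Tb.getD 4 0) fun a4 =>
  frc (3 * Tb.getD 5 0) fun a5 =>
  frc (3 * Tb.getD 6 0) fun a6 =>
  frc (3 * Tb.getD 7 0) fun a7 =>
  frc (3 * Tb.getD 8 0) fun a8 =>
  frc (3 * Tb.getD 9 0) fun a9 =>
  frc (3 * Tb.getD 10 0) fun a10 =>
  frc (3 * Tb.getD 11 0) fun a11 =>
  frc (Tb.getD 12 0) fun a12 =>
  frc (Tb.getD 13 0) fun a13 =>
  frc (Tb.getD 14 0) fun a14 =>
  frc (Tb.getD 15 0) fun a15 =>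
  frc (Tb.getD 16 0) fun a16 =>
  frc (Tb.getD 17 0) fun a17 =>
  frc (Tb.getD 18 0) fun a18 =>
  frc (Tb.getD 19 0) fun a19 =>
  frc (Tb.getD 20 0) fun a20 =>
  frc (Tb.getD 21 0) fun a21 =>
  frc (Tb.getD 22 0) fun a22 =>
  frc (Tb.getD 23 0) fun a23 =>
  frc (18 * Tb.getD 24 0) fun a24 =>
  frc (6 * Tb.getD 25 0) fun b => frc (18446744073709551616 * b) fun A0 =>
  frc (9223372036854775808 * (a0 + a1 + a2 + a3 + a4 + a5 + a6 + a7 + a8 + a9 + a10 + a11 + a12 + a13 + a14 + a15 + a16 + a17 + a18 + a19 + a20 + a21 + a22 + a23 + a24)) fun B0 =>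
  allF (n1 e o mk A0 b B0 a0 a1 a2 a3 a4 a5 a6 a7 a8 a9 a10 a11 a12 a13 a14 a15 a16 a17 a18 a19 a20 a21 a22 a23 a24) pool

theorem cast_nadd (a b : ℕ) : ((Nat.add a b : ℕ) : ℤ) = a + b := Nat.cast_add a b

theorem cast_nmul (a b : ℕ) : ((Nat.mul a b : ℕ) : ℤ) = a * b := Nat.cast_mul a b

theorem ab_eq (k : ℤ) (d K : ℕ) : (k * ((d : ℤ) - K)).natAbs = k.natAbs * (d - K + (K - d)) := by
  rw [Int.natAbs_mul]
  congr 1
  omega

theorem cf (c i k : ℕ) (h : k = 64 * i) : fld c i =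
    (Nat.land (Nat.shiftRight c k) 18446744073709551615 : ℤ) - (9223372036854775808 : ℕ) := by
  subst h
  rw [FCtlm.land64]
  rfl

theorem sub_eq (a b c d : ℕ) (h : (a : ℤ) - b = c - d) : a - b = c - d := by omega

theorem ble_lt (a b c : ℕ) (h : c = b + 1) : Nat.ble a b = decide (a < c) := by
  subst h
  rw [Bool.eq_iff_iff, Nat.ble_eq, decide_eq_true_eq, Nat.lt_succ_iff]

theorem sA_eq (F : ℕ → ℤ) (d0 d1 d2 d3 d4 d5 d6 d7 d8 d9 d10 d11 d12 d13 d14 d15 d16 d17 d18 d19 d20 d21 d22 d23 d24 d25 : ℕ)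
    (h0 : F 0 = 3 * ((d0 : ℤ) - (9223372036854775808 : ℕ)))
    (h1 : F 1 = 3 * ((d1 : ℤ) - (9223372036854775808 : ℕ)))
    (h2 : F 2 = 3 * ((d2 : ℤ) - (9223372036854775808 : ℕ)))
    (h3 : F 3 = 3 * ((d3 : ℤ) - (9223372036854775808 : ℕ)))
    (h4 : F 4 = 3 * ((d4 : ℤ) - (9223372036854775808 : ℕ)))
    (h5 : F 5 = 3 * ((d5 : ℤ) - (9223372036854775808 : ℕ)))
    (h6 : F 6 = 3 * ((d6 : ℤ) - (9223372036854775808 : ℕ)))
    (h7 : F 7 = 3 * ((d7 : ℤ) - (9223372036854775808 : ℕ)))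
    (h8 : F 8 = 3 * ((d8 : ℤ) - (9223372036854775808 : ℕ)))
    (h9 : F 9 = 3 * ((d9 : ℤ) - (9223372036854775808 : ℕ)))
    (h10 : F 10 = 3 * ((d10 : ℤ) - (9223372036854775808 : ℕ)))
    (h11 : F 11 = 3 * ((d11 : ℤ) - (9223372036854775808 : ℕ)))
    (h12 : F 12 = 1 * ((d12 : ℤ) - (9223372036854775808 : ℕ)))
    (h13 : F 13 = 1 * ((d13 : ℤ) - (9223372036854775808 : ℕ)))
    (h14 : F 14 = 1 * ((d14 : ℤ) - (9223372036854775808 : ℕ)))
    (h15 : F 15 = 1 * ((d15 : ℤ) - (9223372036854775808 : ℕ)))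
    (h16 : F 16 = 1 * ((d16 : ℤ) - (9223372036854775808 : ℕ)))
    (h17 : F 17 = 1 * ((d17 : ℤ) - (9223372036854775808 : ℕ)))
    (h18 : F 18 = 1 * ((d18 : ℤ) - (9223372036854775808 : ℕ)))
    (h19 : F 19 = 1 * ((d19 : ℤ) - (9223372036854775808 : ℕ)))
    (h20 : F 20 = 1 * ((d20 : ℤ) - (9223372036854775808 : ℕ)))
    (h21 : F 21 = 1 * ((d21 : ℤ) - (9223372036854775808 : ℕ)))
    (h22 : F 22 = 1 * ((d22 : ℤ) - (9223372036854775808 : ℕ)))
    (h23 : F 23 = 1 * ((d23 : ℤ) - (9223372036854775808 : ℕ)))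
    (h24 : F 24 = 18 * ((d24 : ℤ) - (9223372036854775808 : ℕ)))
    (h25 : F 25 = -6 * (((d24 + d25 : ℕ) : ℤ) - (18446744073709551616 : ℕ))) :
    sA d0 d1 d2 d3 d4 d5 d6 d7 d8 d9 d10 d11 d12 d13 d14 d15 d16 d17 d18 d19 d20 d21 d22 d23 d24 d25 = ∑ i ∈ range 26, (F i).natAbs := by
  simp only [sA, sum_range_succ, sum_range_zero, h0, h1, h2, h3, h4, h5, h6, h7, h8, h9, h10, h11, h12, h13, h14, h15, h16, h17, h18, h19, h20, h21, h22, h23, h24, h25, ab_eq, Nat.add_eq, Nat.mul_eq, Nat.sub_eq,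
    Int.reduceAbs, Int.natAbs_neg, Int.natAbs_one]
  ring

theorem v_eq (F : ℕ → ℤ) (T : ℕ → ℕ) (e o sa d0 d1 d2 d3 d4 d5 d6 d7 d8 d9 d10 d11 d12 d13 d14 d15 d16 d17 d18 d19 d20 d21 d22 d23 d24 d25 : ℕ)
    (h0 : F 0 = 3 * ((d0 : ℤ) - (9223372036854775808 : ℕ)))
    (h1 : F 1 = 3 * ((d1 : ℤ) - (9223372036854775808 : ℕ)))
    (h2 : F 2 = 3 * ((d2 : ℤ) - (9223372036854775808 : ℕ)))
    (h3 : F 3 = 3 * ((d3 : ℤ) - (9223372036854775808 : ℕ)))
    (h4 : F 4 = 3 * ((d4 : ℤ) - (9223372036854775808 : ℕ)))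
    (h5 : F 5 = 3 * ((d5 : ℤ) - (9223372036854775808 : ℕ)))
    (h6 : F 6 = 3 * ((d6 : ℤ) - (9223372036854775808 : ℕ)))
    (h7 : F 7 = 3 * ((d7 : ℤ) - (9223372036854775808 : ℕ)))
    (h8 : F 8 = 3 * ((d8 : ℤ) - (9223372036854775808 : ℕ)))
    (h9 : F 9 = 3 * ((d9 : ℤ) - (9223372036854775808 : ℕ)))
    (h10 : F 10 = 3 * ((d10 : ℤ) - (9223372036854775808 : ℕ)))
    (h11 : F 11 = 3 * ((d11 : ℤ) - (9223372036854775808 : ℕ)))
    (h12 : F 12 = 1 * ((d12 : ℤ) - (9223372036854775808 : ℕ)))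
    (h13 : F 13 = 1 * ((d13 : ℤ) - (9223372036854775808 : ℕ)))
    (h14 : F 14 = 1 * ((d14 : ℤ) - (9223372036854775808 : ℕ)))
    (h15 : F 15 = 1 * ((d15 : ℤ) - (9223372036854775808 : ℕ)))
    (h16 : F 16 = 1 * ((d16 : ℤ) - (9223372036854775808 : ℕ)))
    (h17 : F 17 = 1 * ((d17 : ℤ) - (9223372036854775808 : ℕ)))
    (h18 : F 18 = 1 * ((d18 : ℤ) - (9223372036854775808 : ℕ)))
    (h19 : F 19 = 1 * ((d19 : ℤ) - (9223372036854775808 : ℕ)))
    (h20 : F 20 = 1 * ((d20 : ℤ) - (9223372036854775808 : ℕ)))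
    (h21 : F 21 = 1 * ((d21 : ℤ) - (9223372036854775808 : ℕ)))
    (h22 : F 22 = 1 * ((d22 : ℤ) - (9223372036854775808 : ℕ)))
    (h23 : F 23 = 1 * ((d23 : ℤ) - (9223372036854775808 : ℕ)))
    (h24 : F 24 = 18 * ((d24 : ℤ) - (9223372036854775808 : ℕ)))
    (h25 : F 25 = -6 * (((d24 + d25 : ℕ) : ℤ) - (18446744073709551616 : ℕ))) :
    (vA e o (18446744073709551616 * (6 * T 25)) (3 * T 0) (3 * T 1) (3 * T 2) (3 * T 3) (3 * T 4) (3 * T 5) (3 * T 6) (3 * T 7) (3 * T 8) (3 * T 9) (3 * T 10) (3 * T 11) (T 12) (T 13) (T 14) (T 15) (T 16) (T 17) (T 18) (T 19) (T 20) (T 21) (T 22) (T 23) (18 * T 24) sa d0 d1 d2 d3 d4 d5 d6 d7 d8 d9 d10 d11 d12 d13 d14 d15 d16 d17 d18 d19 d20 d21 d22 d23 d24 d25 : ℤ) -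
      vB o (6 * T 25) (9223372036854775808 * (3 * T 0 + 3 * T 1 + 3 * T 2 + 3 * T 3 + 3 * T 4 + 3 * T 5 + 3 * T 6 + 3 * T 7 + 3 * T 8 + 3 * T 9 + 3 * T 10 + 3 * T 11 + T 12 + T 13 + T 14 + T 15 + T 16 + T 17 + T 18 + T 19 + T 20 + T 21 + T 22 + T 23 + 18 * T 24)) d0 d1 d2 d3 d4 d5 d6 d7 d8 d9 d10 d11 d12 d13 d14 d15 d16 d17 d18 d19 d20 d21 d22 d23 d24 d25 =
    ∑ i ∈ range 26, F i * T i + (2 ^ 127 - 1 + (sa * e : ℕ) - (∑ i ∈ range 26, F i) * 2 ^ 82) * o := by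
  unfold vA vB
  simp only [sum_range_succ, sum_range_zero, h0, h1, h2, h3, h4, h5, h6, h7, h8, h9, h10, h11, h12, h13, h14, h15, h16, h17, h18, h19, h20, h21, h22, h23, h24, h25, cast_nadd, cast_nmul, Nat.cast_add, Nat.cast_mul,
    Nat.cast_ofNat]
  ring

theorem n2_def (e o mk A0 b B0 a0 a1 a2 a3 a4 a5 a6 a7 a8 a9 a10 a11 a12 a13 a14 a15 a16 a17 a18 a19 a20 a21 a22 a23 a24 d0 d1 d2 d3 d4 d5 d6 d7 d8 d9 d10 d11 d12 d13 d14 d15 d16 d17 d18 d19 d20 d21 d22 d23 d24 d25 : ℕ) :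
    n2 e o mk A0 b B0 a0 a1 a2 a3 a4 a5 a6 a7 a8 a9 a10 a11 a12 a13 a14 a15 a16 a17 a18 a19 a20 a21 a22 a23 a24 d0 d1 d2 d3 d4 d5 d6 d7 d8 d9 d10 d11 d12 d13 d14 d15 d16 d17 d18 d19 d20 d21 d22 d23 d24 d25 =
    (Nat.ble (sA d0 d1 d2 d3 d4 d5 d6 d7 d8 d9 d10 d11 d12 d13 d14 d15 d16 d17 d18 d19 d20 d21 d22 d23 d24 d25) 17592186044415 && (Nat.ble (sA d0 d1 d2 d3 d4 d5 d6 d7 d8 d9 d10 d11 d12 d13 d14 d15 d16 d17 d18 d19 d20 d21 d22 d23 d24 d25 * e) 85070591730234615865843651857942052863 &&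
    Nat.beq ((vA e o A0 a0 a1 a2 a3 a4 a5 a6 a7 a8 a9 a10 a11 a12 a13 a14 a15 a16 a17 a18 a19 a20 a21 a22 a23 a24 (sA d0 d1 d2 d3 d4 d5 d6 d7 d8 d9 d10 d11 d12 d13 d14 d15 d16 d17 d18 d19 d20 d21 d22 d23 d24 d25) d0 d1 d2 d3 d4 d5 d6 d7 d8 d9 d10 d11 d12 d13 d14 d15 d16 d17 d18 d19 d20 d21 d22 d23 d24 d25 - vB o b B0 d0 d1 d2 d3 d4 d5 d6 d7 d8 d9 d10 d11 d12 d13 d14 d15 d16 d17 d18 d19 d20 d21 d22 d23 d24 d25) &&& mk) 0)) := rfl

theorem n2_eq (F : ℕ → ℤ) (T : ℕ → ℕ) (e o mk p m d0 d1 d2 d3 d4 d5 d6 d7 d8 d9 d10 d11 d12 d13 d14 d15 d16 d17 d18 d19 d20 d21 d22 d23 d24 d25 : ℕ)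
    (h0 : F 0 = 3 * ((d0 : ℤ) - (9223372036854775808 : ℕ)))
    (h1 : F 1 = 3 * ((d1 : ℤ) - (9223372036854775808 : ℕ)))
    (h2 : F 2 = 3 * ((d2 : ℤ) - (9223372036854775808 : ℕ)))
    (h3 : F 3 = 3 * ((d3 : ℤ) - (9223372036854775808 : ℕ)))
    (h4 : F 4 = 3 * ((d4 : ℤ) - (9223372036854775808 : ℕ)))
    (h5 : F 5 = 3 * ((d5 : ℤ) - (9223372036854775808 : ℕ)))
    (h6 : F 6 = 3 * ((d6 : ℤ) - (9223372036854775808 : ℕ)))
    (h7 : F 7 = 3 * ((d7 : ℤ) - (9223372036854775808 : ℕ)))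
    (h8 : F 8 = 3 * ((d8 : ℤ) - (9223372036854775808 : ℕ)))
    (h9 : F 9 = 3 * ((d9 : ℤ) - (9223372036854775808 : ℕ)))
    (h10 : F 10 = 3 * ((d10 : ℤ) - (9223372036854775808 : ℕ)))
    (h11 : F 11 = 3 * ((d11 : ℤ) - (9223372036854775808 : ℕ)))
    (h12 : F 12 = 1 * ((d12 : ℤ) - (9223372036854775808 : ℕ)))
    (h13 : F 13 = 1 * ((d13 : ℤ) - (9223372036854775808 : ℕ)))
    (h14 : F 14 = 1 * ((d14 : ℤ) - (9223372036854775808 : ℕ)))
    (h15 : F 15 = 1 * ((d15 : ℤ) - (9223372036854775808 : ℕ)))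
    (h16 : F 16 = 1 * ((d16 : ℤ) - (9223372036854775808 : ℕ)))
    (h17 : F 17 = 1 * ((d17 : ℤ) - (9223372036854775808 : ℕ)))
    (h18 : F 18 = 1 * ((d18 : ℤ) - (9223372036854775808 : ℕ)))
    (h19 : F 19 = 1 * ((d19 : ℤ) - (9223372036854775808 : ℕ)))
    (h20 : F 20 = 1 * ((d20 : ℤ) - (9223372036854775808 : ℕ)))
    (h21 : F 21 = 1 * ((d21 : ℤ) - (9223372036854775808 : ℕ)))
    (h22 : F 22 = 1 * ((d22 : ℤ) - (9223372036854775808 : ℕ)))
    (h23 : F 23 = 1 * ((d23 : ℤ) - (9223372036854775808 : ℕ)))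
    (h24 : F 24 = 18 * ((d24 : ℤ) - (9223372036854775808 : ℕ)))
    (h25 : F 25 = -6 * (((d24 + d25 : ℕ) : ℤ) - (18446744073709551616 : ℕ)))
    (q : (p : ℤ) - m = ∑ f ∈ range 26, F f * T f) (s : ℕ) (hs : ∑ i ∈ range 26, (F i).natAbs = s)
    (h : ℤ) (hh : 2 ^ 127 - 1 + (s * e : ℕ) - (∑ i ∈ range 26, F i) * 2 ^ 82 = h) :
    n2 e o mk (18446744073709551616 * (6 * T 25)) (6 * T 25) (9223372036854775808 * (3 * T 0 + 3 * T 1 + 3 * T 2 + 3 * T 3 + 3 * T 4 + 3 * T 5 + 3 * T 6 + 3 * T 7 + 3 * T 8 + 3 * T 9 + 3 * T 10 + 3 * T 11 + T 12 + T 13 + T 14 + T 15 + T 16 + T 17 + T 18 + T 19 + T 20 + T 21 + T 22 + T 23 + 18 * T 24)) (3 * T 0) (3 * T 1) (3 * T 2) (3 * T 3) (3 * T 4) (3 * T 5) (3 * T 6) (3 * T 7) (3 * T 8) (3 * T 9) (3 * T 10) (3 * T 11) (T 12) (T 13) (T 14) (T 15) (T 16) (T 17) (T 18) (T 19) (T 20) (T 21) (T 22) (T 23) (18 * T 24) d0 d1 d2 d3 d4 d5 d6 d7 d8 d9 d10 d11 d12 d13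 d14 d15 d16 d17 d18 d19 d20 d21 d22 d23 d24 d25 =
    (decide (s < 2 ^ 44) && (decide (s * e < 2 ^ 126) &&
      Nat.beq ((p + h.toNat * o - ((-h).toNat * o + m)) &&& mk) 0)) := by
  have e2 := v_eq F T e o s d0 d1 d2 d3 d4 d5 d6 d7 d8 d9 d10 d11 d12 d13 d14 d15 d16 d17 d18 d19 d20 d21 d22 d23 d24 d25 h0 h1 h2 h3 h4 h5 h6 h7 h8 h9 h10 h11 h12 h13 h14 h15 h16 h17 h18 h19 h20 h21 h22 h23 h24 h25
  rw [n2_def, sA_eq F d0 d1 d2 d3 d4 d5 d6 d7 d8 d9 d10 d11 d12 d13 d14 d15 d16 d17 d18 d19 d20 d21 d22 d23 d24 d25 h0 h1 h2 h3 h4 h5 h6 h7 h8 h9 h10 h11 h12 h13 h14 h15 h16 h17 h18 h19 h20 h21 h22 h23 h24 h25, hs, ble_lt _ _ (2 ^ 44) (by norm_num),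
    ble_lt _ _ (2 ^ 126) (by norm_num), sub_eq _ _ (p + h.toNat * o) ((-h).toNat * o + m)]
  rw [e2, hh, ← q]
  have e3 : (h.toNat : ℤ) * o - (-h).toNat * o = h * o := by
    rw [← sub_mul, Int.toNat_sub_toNat_neg]
  push_cast
  linarith

theorem c1 (c f k : ℕ) (h : f < 12) (hk : k = 64 * f) : cof c f =
    3 * ((Nat.land (Nat.shiftRight c k) 18446744073709551615 : ℤ) - (9223372036854775808 : ℕ)) := by
  rw [cof, if_pos h, cf c f k hk]

theorem c2 (c f k : ℕ) (h : ¬f < 12) (h' : f < 24) (hk : k = 64 * f) : cof c f =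
    1 * ((Nat.land (Nat.shiftRight c k) 18446744073709551615 : ℤ) - (9223372036854775808 : ℕ)) := by
  rw [cof, if_neg h, if_pos h', cf c f k hk, one_mul]

theorem c3 (c : ℕ) : cof c 24 = 18 *
    ((Nat.land (Nat.shiftRight c 1536) 18446744073709551615 : ℤ) - (9223372036854775808 : ℕ)) := by
  rw [cof, if_neg (by norm_num), if_neg (by norm_num), if_pos rfl, cf c 24 1536 (by norm_num)]

theorem c4 (c : ℕ) : cof c 25 = -6 * (((Nat.land (Nat.shiftRight c 1536) 18446744073709551615 +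
    Nat.land (Nat.shiftRight c 1600) 18446744073709551615 : ℕ) : ℤ) - (18446744073709551616 : ℕ)) := by
  rw [cof, if_neg (by norm_num), if_neg (by norm_num), if_neg (by norm_num),
    cf c 24 1536 (by norm_num), cf c 25 1600 (by norm_num), Nat.cast_add]
  generalize (Nat.land (Nat.shiftRight c 1536) 18446744073709551615 : ℤ) = x
  generalize (Nat.land (Nat.shiftRight c 1600) 18446744073709551615 : ℤ) = y
  push_cast
  ring

theorem n1_eq (E o mk : ℕ) (Tb : List ℕ) (c : ℕ) :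
    n1 (11025 * (E + 36)) o mk (18446744073709551616 * (6 * Tb.getD 25 0)) (6 * Tb.getD 25 0) (9223372036854775808 * (3 * Tb.getD 0 0 + 3 * Tb.getD 1 0 + 3 * Tb.getD 2 0 + 3 * Tb.getD 3 0 + 3 * Tb.getD 4 0 + 3 * Tb.getD 5 0 + 3 * Tb.getD 6 0 + 3 * Tb.getD 7 0 + 3 * Tb.getD 8 0 + 3 * Tb.getD 9 0 + 3 * Tb.getD 10 0 + 3 * Tb.getD 11 0 + Tb.getD 12 0 + Tb.getD 13 0 + Tb.getD 14 0 + Tb.getD 15 0 + Tb.getD 16 0 + Tb.getD 17 0 + Tb.getD 18 0 + Tb.getD 19 0 + Tb.getD 20 0 + Tb.getD 21 0 + Tb.getD 22 0 + Tb.getD 23 0 + 18 * Tb.getD 24 0)) (3 * Tb.getD 0 0) (3 * Tb.getD 1 0) (3 * Tb.getD 2 0) (3 * Tb.getD 3 0) (3 * Tb.getD 4 0) (3 * Tb.getD 5 0) (3 * Tb.getD 6 0) (3 * Tb.getD 7 0) (3 * Tb.getD 8 0) (3 * Tb.getD 9 0) (3 * Tb.getD 10 0) (3 * Tb.getD 11 0) (Tb.getD 12 0) (Tb.getD 13 0) (Tb.getD 14 0) (Tb.getD 15 0) (Tb.getD 16 0) (Tb.getD 17 0) (Tb.getD 18 0) (Tb.getD 19 0) (Tb.getD 20 0)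 (Tb.getD 21 0) (Tb.getD 22 0) (Tb.getD 23 0) (18 * Tb.getD 24 0) c =
    neg E o mk Tb c := by
  obtain ⟨p, m, q1, q2⟩ := Negm.acc_eq ((List.range 26).map (cof c)) Tb 0 0
  rw [neg, fLZ_eq, frc_eq, q1, fZ_eq, List.map_map, Negm.lsum, Negm.lsum]
  have q3 : (p : ℤ) - m = ∑ f ∈ range 26, cof c f * (Tb.getD f 0 : ℕ) := by
    rw [q2, List.length_map, List.length_range]
    simp only [Nat.cast_zero, sub_zero, zero_add]
    refine sum_congr rfl fun f hf => ?_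
    rw [List.getD_eq_getElem ((List.range 26).map (cof c)) _ (by simpa using hf)]
    simp only [List.getElem_map, List.getElem_range]
  simp only [Function.comp]
  rw [n1]
  exact n2_eq (cof c) (fun i => Tb.getD i 0) (11025 * (E + 36)) o mk p m _ _ _ _ _ _ _ _ _ _ _ _ _ _ _ _ _ _ _ _ _ _ _ _ _ _
    (c1 c 0 0 (by norm_num) (by norm_num)) (c1 c 1 64 (by norm_num) (by norm_num)) (c1 c 2 128 (by norm_num) (by norm_num)) (c1 c 3 192 (by norm_num) (by norm_num)) (c1 c 4 256 (by norm_num) (by norm_num)) (c1 c 5 320 (by norm_num) (by norm_num)) (c1 c 6 384 (by norm_num) (by norm_num)) (c1 c 7 448 (by norm_num) (by norm_num)) (c1 c 8 512 (by norm_num) (by norm_num)) (c1 c 9 576 (by norm_num) (by norm_num)) (c1 c 10 640 (by norm_num) (by norm_num)) (c1 c 11 704 (by norm_num) (by norm_num)) (c2 c 12 768 (by norm_num) (by norm_num) (by norm_num)) (c2 c 13 832 (by norm_num) (by norm_num)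 (by norm_num)) (c2 c 14 896 (by norm_num) (by norm_num) (by norm_num)) (c2 c 15 960 (by norm_num) (by norm_num) (by norm_num)) (c2 c 16 1024 (by norm_num) (by norm_num) (by norm_num)) (c2 c 17 1088 (by norm_num) (by norm_num) (by norm_num)) (c2 c 18 1152 (by norm_num) (by norm_num) (by norm_num)) (c2 c 19 1216 (by norm_num) (by norm_num) (by norm_num)) (c2 c 20 1280 (by norm_num) (by norm_num) (by norm_num)) (c2 c 21 1344 (by norm_num) (by norm_num) (by norm_num)) (c2 c 22 1408 (by norm_num) (by norm_num) (by norm_num)) (c2 c 23 1472 (by norm_num) (by norm_num) (by norm_num)) (c3 c) (c4 c)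
    q3 _ rfl _ rfl

end FNg

/-- fast form of `pool.all (neg E o mk Tb)` -/
theorem n0_eq (E : ℕ) (pool : List ℕ) (o mk : ℕ) (Tb : List ℕ) :
    FNg.n0 E pool o mk Tb = pool.all (neg E o mk Tb) := by
  simp only [FNg.n0, frc_eq, FNg.allF_eq]
  exact congrArg pool.all (funext fun c => FNg.n1_eq E o mk Tb c)

/-- fast checker -/
noncomputable def chkN (ln E : ℕ) (pool : List ℕ) (t : KT) (s0 s1 x0 x1 : ℕ) : Bool :=
  chkG (cell ln) (FNg.n0 E pool) E t s0 s1 x0 x1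

theorem chkN_eq (ln E : ℕ) (pool : List ℕ) (t : KT) (s0 s1 x0 x1 : ℕ) :
    chkN ln E pool t s0 s1 x0 x1 = chkP ln E pool t s0 s1 x0 x1 :=
  chkG_eq _ _ ln E pool (fun _ _ _ _ _ _ => rfl) (n0_eq E pool) t s0 s1 x0 x1

end Vale.Agent.P154.AF.Ck
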