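import Vale.Agent.P154.AF.SpecA

namespace Vale.Agent.P154.AF.Ck

open Finset

def frc0 {β : Type} (n : ℕ) (k : ℕ → β) : β := Nat.casesOn n (k 0) fun m => k (Nat.succ m)

theorem frc0_eq {β : Type} (n : ℕ) (k : ℕ → β) : frc0 n k = k n := by cases n <;> rfl

def frc {β : Type} (n : ℕ) (k : ℕ → β) : β := k n

theorem frc_eq {β : Type} (n : ℕ) (k : ℕ → β) : frc n k = k n := by simp only [frc]

def fZ {β : Type} (z : ℤ) (k : ℤ → β) : β :=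
  match z with
  | .ofNat n => frc n fun m => k (.ofNat m)
  | .negSucc n => frc n fun m => k (.negSucc m)

theorem fZ_eq {β : Type} (z : ℤ) (k : ℤ → β) : fZ z k = k z := by cases z <;> simp [fZ, frc_eq]

def fL {β : Type} : List ℕ → (List ℕ → β) → β
  | [], k => k []
  | a :: l, k => frc a fun b => fL l fun m => k (b :: m)

theorem fL_eq {β : Type} (l : List ℕ) (k : List ℕ → β) : fL l k = k l := by
  induction l generalizing k with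
  | nil => rfl
  | cons a l ih => simp [fL, frc_eq, ih]

def fLZ {β : Type} : List ℤ → (List ℤ → β) → β
  | [], k => k []
  | a :: l, k => fZ a fun b => fLZ l fun m => k (b :: m)

theorem fLZ_eq {β : Type} (l : List ℤ) (k : List ℤ → β) : fLZ l k = k l := by
  induction l generalizing k with
  | nil => rfl
  | cons a l ih => simp [fLZ, fZ_eq, ih]

/-- Taylor model: Kronecker residue (`u ↦ X ^ 8`, `v ↦ X ^ 9`, `X = 2 ^ 864`, modulo `X ^ 64`),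
majorant norms at radius `1` and `r`, error -/
structure TM where
  N : ℕ
  n1 : ℕ
  nr : ℕ
  e : ℕ

def fT {β : Type} (m : TM) (k : TM → β) : β := k m

theorem fT_eq {β : Type} (m : TM) (k : TM → β) : fT m k = k m := by simp only [fT]

def red (n : ℕ) : ℕ := Nat.land n (Nat.sub (Nat.pow 2 55296) 1)
def cst (c : ℕ) : TM := ⟨c, c, c, 0⟩
def mon (r a b : ℕ) : TM := ⟨2 ^ (864 * (8 * a + 9 * b)), 1, r ^ (a + b), 0⟩
def add (a b : TM) : TM :=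
  ⟨Nat.add a.N b.N, Nat.add a.n1 b.n1, Nat.add a.nr b.nr, Nat.add a.e b.e⟩
def sub (a b : TM) : TM := ⟨Nat.add a.N (Nat.sub (Nat.pow 2 55296) (red b.N)), Nat.add a.n1 b.n1,
  Nat.add a.nr b.nr, Nat.add a.e b.e⟩
def sm (c : ℕ) (a : TM) : TM := ⟨Nat.mul c a.N, Nat.mul c a.n1, Nat.mul c a.nr, Nat.mul c a.e⟩
def mul (a b : TM) : TM := ⟨red (Nat.mul a.N b.N), Nat.mul a.n1 b.n1, Nat.mul a.nr b.nr,
  Nat.add (Nat.add (Nat.mul a.n1 b.e) (Nat.mul a.e b.n1)) (Nat.mul a.e b.e)⟩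
def wid (a : TM) (δ : ℕ) : TM := ⟨a.N, a.n1, a.nr, Nat.add a.e δ⟩
def ON : ℕ := Nat.div (Nat.sub (Nat.pow 2 55296) 1) (Nat.sub (Nat.pow 2 864) 1)
def nrm (n : ℕ) : ℕ := red (Nat.add n (Nat.mul (Nat.pow 2 863) ON))
def dg (n p : ℕ) : ℕ := (n >>> (864 * p)) % 2 ^ 864
def dig (n p : ℕ) : ℤ := (dg n p : ℤ) - 2 ^ 863
def terr (r : ℕ) (m : TM) : ℕ := Nat.add (Nat.add m.e (Nat.div m.nr (Nat.pow r 8))) 1

/-- monomials `u ^ (i - j) * v ^ j` -/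
def PS : List (ℕ × ℕ) := [(0,0),(1,0),(1,1),(2,0),(2,1),(2,2),(3,0),(3,1),(3,2),(3,3),(4,0),(4,1),
  (4,2),(4,3),(4,4),(5,0),(5,1),(5,2),(5,3),(5,4),(5,5),(6,0),(6,1),(6,2),(6,3),(6,4),(6,5),(6,6),
  (7,0),(7,1),(7,2),(7,3),(7,4),(7,5),(7,6),(7,7)]

structure RepOk (r : ℕ) (u v : ℝ) (R : TM → ℝ → Prop) : Prop where
  cst : ∀ c : ℕ, R (cst c) c
  mon : ∀ a b, R (mon r a b) (u ^ a * v ^ b)
  add : ∀ a b x y, R a x → R b y → R (add a b) (x + y)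
  sub : ∀ a b x y, R a x → R b y → R (sub a b) (x - y)
  sm : ∀ (c : ℕ) a x, R a x → R (sm c a) (c * x)
  mul : ∀ a b x y, R a x → R b y → R (mul a b) (x * y)
  wid : ∀ a x y (δ : ℕ), R a x → |y - x| ≤ δ → R (wid a δ) y
  abs : ∀ a x, R a x → |x| ≤ a.n1 + a.e
  ext : ∀ a x, R a x → a.n1 < 2 ^ 863 →
    |x - (PS.map fun p => (dig (nrm a.N) (8 * p.1 + p.2) : ℝ) * (u ^ (p.1 - p.2) * v ^ p.2)).sum|
      ≤ terr r a

def StmtTM : Prop := ∀ (r : ℕ) (u v : ℝ), 1 ≤ r → |u| ≤ 1 → |v| ≤ 1 → ∃ R, RepOk r u v R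

def p12 {β : Type} (a : TM) (k : TM → β) : β :=
  fT (mul a a) fun b => fT (mul b a) fun c => fT (mul c c) fun d => fT (mul d d) k

def SH : List ℕ :=
  [0, 6912, 7776, 13824, 14688, 15552, 20736, 21600, 22464, 23328, 27648, 28512, 29376, 30240,
  31104, 34560, 35424, 36288, 37152, 38016, 38880, 41472, 42336, 43200, 44064, 44928, 45792,
  46656, 48384, 49248, 50112, 50976, 51840, 52704, 53568, 54432]

def bsum (n : ℕ) (l : List ℕ) : ℕ → ℕ :=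
  List.rec (fun a => a) (fun s _ ih a =>
    (fun d => ih (Nat.add a (Nat.add (Nat.sub d (Nat.pow 2 863)) (Nat.sub (Nat.pow 2 863) d))))
    (Nat.land (Nat.shiftRight n s) (Nat.sub (Nat.pow 2 864) 1))) l

def bnd (r : ℕ) (m : TM) : ℕ :=
  cond (Nat.ble (Nat.pow 2 863) m.n1) (Nat.add m.n1 m.e)
    (frc (nrm m.N) fun n => bsum n SH (terr r m))

def nwt (b f : ℕ) : ℕ → ℕ :=
  Nat.rec (fun x => x) (fun _ ih x =>
    frc (Nat.div (Nat.add (Nat.mul 11 x) (Nat.div b (Nat.pow x 11))) 12) ih) f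

def hor {β : Type} (y : ℕ) (k : ℕ → β) (l : List ℕ) : ℕ → ℕ → β :=
  List.rec (fun _ h => k h) (fun c _ ih s h =>
    frc (Nat.add (red (Nat.mul y h)) (Nat.shiftLeft c s)) (ih (Nat.add s 64))) l

/-- unverified guess of the coefficients of the twelfth root (packed, bits `512 ..` of a digit) -/
def hint {β : Type} (S : ℕ) (B : TM) (k : ℕ → β) : β :=
  frc (red B.N) fun N =>
  frc (Nat.sub (Nat.land (nrm N) (Nat.sub (Nat.pow 2 864) 1)) (Nat.pow 2 863)) fun b0 =>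
  frc (nwt b0 26 (Nat.div (Nat.mul 5 S) 4)) fun r0 => frc (Nat.mul 12 (Nat.log2 S)) fun s =>
  frc (red (Nat.sub (Nat.add (Nat.land (Nat.shiftRight (nrm (Nat.mul
    (Nat.sub (Nat.add b0 (Nat.pow 2 55296)) N) (Nat.div (Nat.pow 2 (Nat.add s 128)) b0)))
    (Nat.add s 64)) (Nat.mul ON (Nat.sub (Nat.pow 2 (Nat.sub 800 s)) 1))) (Nat.pow 2 55296))
    (Nat.mul ON (Nat.pow 2 (Nat.sub 799 s))))) fun y =>
  hor y (fun h => frc (nrm (Nat.mul r0 (Nat.sub (Nat.add (Nat.pow 2 512) (Nat.pow 2 55296))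
    (red (Nat.mul y h))))) k) [210687216209636875, 257109823171082288, 328225306175849729,
    450137562755451057, 704563141704184263, 1537228672809129301] 64 178080861320050216

def LS : List (ℕ × ℕ × ℕ) :=
  [(6912,7424,1), (7776,8288,1), (13824,14336,2), (14688,15200,2), (15552,16064,2),
  (20736,21248,3), (21600,22112,3), (22464,22976,3), (23328,23840,3), (27648,28160,4),
  (28512,29024,4), (29376,29888,4), (30240,30752,4), (31104,31616,4), (34560,35072,5),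
  (35424,35936,5), (36288,36800,5), (37152,37664,5), (38016,38528,5), (38880,39392,5),
  (41472,41984,6), (42336,42848,6), (43200,43712,6), (44064,44576,6), (44928,45440,6),
  (45792,46304,6), (46656,47168,6), (48384,48896,7), (49248,49760,7), (50112,50624,7),
  (50976,51488,7), (51840,52352,7), (52704,53216,7), (53568,54080,7), (54432,54944,7)]

def build {β : Type} (r n : ℕ) (k : TM → β) (l : List (ℕ × ℕ × ℕ)) : ℕ → ℕ → ℕ → ℕ → β :=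
  List.rec (fun p q a b => k ⟨Nat.add p (Nat.sub (Nat.pow 2 55296) (red q)), a, b, 0⟩)
    (fun t _ ih p q a b => (fun d => Bool.rec (motive := fun _ => β)
      ((fun z => ih p (Nat.add q (Nat.shiftLeft z t.1)) (Nat.add a z)
        (Nat.add b (Nat.mul z (Nat.pow r t.2.2)))) (Nat.sub (Nat.pow 2 351) d))
      ((fun z => ih (Nat.add p (Nat.shiftLeft z t.1)) q (Nat.add a z)
        (Nat.add b (Nat.mul z (Nat.pow r t.2.2)))) (Nat.sub d (Nat.pow 2 351)))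
      (Nat.ble (Nat.pow 2 351) d))
      (Nat.land (Nat.shiftRight n t.2.1) (Nat.sub (Nat.pow 2 352) 1))) l

def root (r S : ℕ) (B : TM) : TM :=
  hint S B fun n => build r n (fun T0 => fT T0 fun T =>
  frc (Nat.sub (Nat.land (Nat.shiftRight n 512) (Nat.sub (Nat.pow 2 352) 1)) (Nat.pow 2 351))
  fun c => fT (add (cst c) T) fun W => p12 W fun W12 => fT (sub W12 B) fun D =>
  frc (bnd r D) fun bd => frc (c - (T.n1 + T.e)) fun L0 => frc (L0 - S / 128) fun L =>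
  if 0 < L ∧ L ^ 12 + bd ≤ L0 ^ 12 then wid W (bd / (12 * L ^ 11) + 1)
  else wid (cst 0) (1 + B.n1 + B.e)) LS 0 0 0 0

def RootOk (r : ℕ) (R : TM → ℝ → Prop) : Prop :=
  ∀ S B y, R B y → 0 ≤ y → R (root r S B) (rt y)

def StmtRoot : Prop := ∀ (r : ℕ) (u v : ℝ) (R : TM → ℝ → Prop), |u| ≤ 1 → |v| ≤ 1 →
  RepOk r u v R → RootOk r R

def KS : List (ℕ × ℕ × ℕ) := [(0,6,6),(0,4,8),(0,3,9),(0,2,10),(0,1,11),(4,0,0),(3,0,3),(2,0,6),
  (1,0,9),(2,2,4),(1,3,6),(1,1,8)]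

/-- power sums `p_0 .. p_n` (appended to `acc`) -/
def pws {β : Type} (w0 w1 w2 : TM) : ℕ → TM → TM → TM → List TM → (List TM → β) → β
  | 0, _, _, _, acc, k => k acc
  | n + 1, a, b, c, acc, k => fT (add (add a b) c) fun p => fT (mul a w0) fun a' =>
    fT (mul b w1) fun b' => fT (mul c w2) fun c' => pws w0 w1 w2 n a' b' c' (acc ++ [p]) k

def outs {β : Type} (me p : List TM) : List (ℕ × ℕ × ℕ) → (List TM → β) → β
  | [], k => k []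
  | x :: l, k => fT (mul (p.getD x.2.1 (cst 0)) (p.getD x.2.2 (cst 0))) fun a =>
    fT (mul (me.getD x.1 (cst 0)) (sub a (p.getD (x.2.1 + x.2.2) (cst 0)))) fun b =>
    outs me p l fun o => k (b :: o)

/-- models of `m3 * Ph k w` for `k ∈ KS` -/
def part {β : Type} (w0 w1 w2 m3 : TM) (k : List TM → β) : β :=
  pws w0 w1 w2 13 (cst 1) (cst 1) (cst 1) [] fun p => fT (mul w0 w1) fun e0 =>
  fT (mul e0 w2) fun e => fT (mul m3 e) fun m1 => fT (mul m1 e) fun m2 => fT (mul m2 e) fun m4 =>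
  fT (mul m4 e) fun m5 => outs [m3, m1, m2, m4, m5] p KS k

def bt (ln : ℕ) (m3 a : TM) : TM :=
  sm (2 ^ 352) (sub (sm ((2 ^ 20 + ln) * 2 ^ 156) m3) (sm (3 * ln) a))

def cell {β : Type} (ln r s0 s1 x0 x1 : ℕ) (k : List TM → β) : β :=
  fT (add (cst (s0 + s1)) (sm (s1 - s0) (mon r 1 0))) fun sg =>
  fT (add (cst (x0 + x1)) (sm (x1 - x0) (mon r 0 1))) fun xi =>
  p12 sg fun s => p12 xi fun x => fT (mul s x) fun a2 => fT (sub (sm (2 ^ 156) s) a2) fun a1 =>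
  fT (add (cst (2 ^ 156)) s) fun m3 => fT (sm (2 ^ 372) (sub (cst (2 ^ 156)) x)) fun B1 =>
  fT (root r (2 ^ 44) B1) fun R1 => fT (mul sg R1) fun w1 => fT (sm (2 ^ 31) (mul sg xi)) fun w2 =>
  part (cst (2 ^ 57)) w1 w2 m3 fun T1 =>
  fT (if ln = 2 ^ 19 then cst (3 * 2 ^ 527) else bt ln m3 (cst (2 ^ 312))) fun B0 =>
  fT (root r (if ln = 2 ^ 19 then 2 ^ 44 else 2 ^ 57) B0) fun R0 =>
  fT (if ln = 2 ^ 19 then mul sg R0 else R0) fun W0 =>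
  fT (bt ln m3 a1) fun Ba => fT (root r (2 ^ 57) Ba) fun W1 =>
  fT (bt ln m3 a2) fun Bb => fT (root r (2 ^ 57) Bb) fun W2 =>
  part W0 W1 W2 m3 fun T2 => fT (mul a1 a1) fun q1 => fT (mul a2 a2) fun q2 =>
  fT (sm (2 ^ 216) (add (add (cst (2 ^ 624)) q1) q2)) fun q =>
  fT (sm (2 ^ 528) (mul m3 m3)) fun mm => k (T1 ++ (T2 ++ [q, mm]))

noncomputable def av (σ ξ : ℝ) : Fin 3 → ℝ := ![1, σ ^ 12 * (1 - ξ ^ 12), σ ^ 12 * ξ ^ 12]

noncomputable def lamOf (ln : ℕ) : ℝ := -(ln : ℝ) / 2 ^ 20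

/-- the 26 functions -/
noncomputable def FL (ln : ℕ) (σ ξ : ℝ) : List ℝ :=
  (KS.map fun k => (1 + σ ^ 12) * Ph k fun i => rt (av σ ξ i)) ++
  ((KS.map fun k => (1 + σ ^ 12) * Ph k fun i =>
    rt ((1 - lamOf ln) * (1 + σ ^ 12) + 3 * lamOf ln * av σ ξ i)) ++
  [1 + av σ ξ 1 ^ 2 + av σ ξ 2 ^ 2, (1 + σ ^ 12) ^ 2])

def StmtCell : Prop := ∀ (ln r s0 s1 x0 x1 : ℕ) (u v σ ξ : ℝ) (R : TM → ℝ → Prop),
  RepOk r u v R → RootOk r R → ln ≤ 2 ^ 19 → s0 ≤ s1 → x0 ≤ x1 → 0 ≤ σ → 0 ≤ ξ → ξ ≤ 1 →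
  8192 * σ = s0 + s1 + ((s1 : ℝ) - s0) * u → 8192 * ξ = x0 + x1 + ((x1 : ℝ) - x0) * v →
  ∃ L : List TM, (∀ (β : Type) (k : List TM → β), cell ln r s0 s1 x0 x1 k = k L) ∧
    List.Forall₂ (fun m y => R m (2 ^ 840 * y)) L (FL ln σ ξ)

/-- Bernstein control coefficients of `u ^ i` on `[-1, 1]`, degree 7, times 105 -/
def RW : List (List ℤ) := [[105, -105, 105, -105, 105, -105, 105, -105],
  [105, -75, 45, -15, -15, 45, -75, 105], [105, -45, 5, 15, -15, -5, 45, -105],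
  [105, -15, -15, 9, 9, -15, -15, 105], [105, 15, -15, -9, 9, 15, -15, -105],
  [105, 45, 5, -15, -15, 5, 45, 105], [105, 75, 45, 15, -15, -45, -75, -105],
  [105, 105, 105, 105, 105, 105, 105, 105]]

def rw (a i : ℕ) : ℤ := (RW.getD a []).getD i 0

def RP : List ℤ := PS.map fun p =>
  ((List.range 64).map fun i => rw (i / 8) (p.1 - p.2) * rw (i % 8) p.2 * 2 ^ (128 * i)).sum

def ones (n : ℕ) : ℕ := (2 ^ (128 * n) - 1) / (2 ^ 128 - 1)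

def ctl1 (n : ℕ) : List (ℕ × ℕ) → List ℤ → ℤ
  | p :: ps, c :: cs =>
    ((((n >>> (864 * (8 * p.1 + p.2) + 800)) % 2 ^ 64 : ℕ) : ℤ) - 2 ^ 63) * c + ctl1 n ps cs
  | _, _ => 0

/-- 64 control values plus `2 ^ 82`, packed in base `2 ^ 128` -/
def ctl (rp : List ℤ) (m : TM) : ℕ :=
  frc (nrm m.N) fun n => (ctl1 n PS rp + ((2 ^ 82 * ones 64 : ℕ) : ℤ)).toNat

def okM (r E : ℕ) (m : TM) : Bool := decide (m.n1 < 2 ^ 863) && decide (terr r m ≤ E * 2 ^ 800)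

/-- `Tb` packs `n` vectors whose convex hull is `105 ^ 2 * (E + 36)`-close to the scaled values -/
def Sem (E n : ℕ) (Tb : List ℕ) (S : List ℝ → Prop) : Prop :=
  ∃ w : ℕ → ℕ → ℤ, (∀ f i, |w f i| ≤ 2 ^ 82) ∧ Tb.length = 26 ∧
    (∀ f < 26, (Tb.getD f 0 : ℤ) = ∑ i ∈ range n, (w f i + 2 ^ 82) * 2 ^ (128 * i)) ∧
    ∀ y, S y → ∀ (c : ℕ → ℤ) (T : ℤ), (∀ i < n, ∑ f ∈ range 26, c f * w f i ≤ T) →
      ∑ f ∈ range 26, (c f : ℝ) * (11025 * 2 ^ 40 * y.getD f 0) ≤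
        T + (∑ f ∈ range 26, |(c f : ℝ)|) * (11025 * (E + 36))

def StmtCtl : Prop := ∀ (r E : ℕ) (L : List TM) (S : List ℝ → Prop), L.length = 26 →
  L.all (okM r E) = true →
  (∀ y, S y → ∃ (u v : ℝ) (R : TM → ℝ → Prop), |u| ≤ 1 ∧ |v| ≤ 1 ∧ RepOk r u v R ∧
    List.Forall₂ (fun m t => R m (2 ^ 840 * t)) L y) →
  Sem E 64 (L.map (ctl RP)) S

inductive KT
  | lf (r : ℕ)
  | hs (l r : KT)
  | hx (l r : KT)

def cat (n : ℕ) (a b : List ℕ) : List ℕ := List.zipWith (fun x y => x + y <<< (128 * n)) a b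

def tabs (ln E : ℕ) (rp : List ℤ) : KT → ℕ → ℕ → ℕ → ℕ → (ℕ → List ℕ → Bool) → Bool
  | .lf r, s0, s1, x0, x1, k => cell ln r s0 s1 x0 x1 fun L =>
    decide (1 ≤ r) && (L.all (okM r E) && fL (L.map (ctl rp)) (k 64))
  | .hs l r, s0, s1, x0, x1, k => frc ((s0 + s1) / 2) fun m => tabs ln E rp l s0 m x0 x1 fun n a =>
    tabs ln E rp r m s1 x0 x1 fun n' b => frc (n + n') fun z => fL (cat n a b) (k z)
  | .hx l r, s0, s1, x0, x1, k => frc ((x0 + x1) / 2) fun m => tabs ln E rp l s0 s1 x0 m fun n a =>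
    tabs ln E rp r s0 s1 m x1 fun n' b => frc (n + n') fun z => fL (cat n a b) (k z)

def InB (s0 s1 x0 x1 : ℕ) (σ ξ : ℝ) : Prop :=
  (s0 : ℝ) ≤ 4096 * σ ∧ 4096 * σ ≤ s1 ∧ (x0 : ℝ) ≤ 4096 * ξ ∧ 4096 * ξ ≤ x1

def StmtTabs : Prop := ∀ (ln E : ℕ) (t : KT) (s0 s1 x0 x1 : ℕ) (k : ℕ → List ℕ → Bool),
  ln ≤ 2 ^ 19 → s0 ≤ s1 → x0 ≤ x1 → x1 ≤ 4096 → tabs ln E RP t s0 s1 x0 x1 k = true →
  ∃ n Tb, k n Tb = true ∧ Sem E n Tb fun y => ∃ σ ξ, InB s0 s1 x0 x1 σ ξ ∧ y = FL ln σ ξ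

/-- field `i` of a packed inequality: `α` (0..11), `β` (12..23), `μ` (24), `γ` (25) -/
def fld (c i : ℕ) : ℤ := (((c >>> (64 * i)) % 2 ^ 64 : ℕ) : ℤ) - 2 ^ 63

def cof (c f : ℕ) : ℤ :=
  if f < 12 then 3 * fld c f else if f < 24 then fld c f else if f = 24 then 18 * fld c 24
  else -6 * (fld c 24 + fld c 25)

def acc {β : Type} : List ℤ → List ℕ → ℕ → ℕ → (ℕ → ℕ → β) → β
  | c :: cs, t :: ts, p, m, k => if c < 0 then frc (m + c.natAbs * t) fun z => acc cs ts p z k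
    else frc (p + c.natAbs * t) fun z => acc cs ts z m k
  | _, _, p, m, k => k p m

def neg (E o mk : ℕ) (Tb : List ℕ) (c : ℕ) : Bool :=
  fLZ ((List.range 26).map (cof c)) fun cs => frc (cs.map Int.natAbs).sum fun sa =>
  decide (sa < 2 ^ 44) && (decide (sa * (11025 * (E + 36)) < 2 ^ 126) &&
  acc cs Tb 0 0 fun p m =>
    fZ (2 ^ 127 - 1 + (sa * (11025 * (E + 36)) : ℕ) - cs.sum * 2 ^ 82) fun h =>
    Nat.beq ((p + h.toNat * o - ((-h).toNat * o + m)) &&& mk) 0)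

def chkP (ln E : ℕ) (pool : List ℕ) (t : KT) (s0 s1 x0 x1 : ℕ) : Bool :=
  fLZ RP fun rp => tabs ln E rp t s0 s1 x0 x1 fun n Tb =>
    frc (ones n) fun o => frc (2 ^ 127 * o) fun mk => pool.all (neg E o mk Tb)

def PW (ln : ℕ) (pool : List ℕ) (s0 s1 x0 x1 : ℕ) : Prop :=
  ∀ c ∈ pool, ∀ σ ξ, InB s0 s1 x0 x1 σ ξ →
    ∑ f ∈ range 26, (cof c f : ℝ) * (FL ln σ ξ).getD f 0 ≤ 0

def StmtNeg : Prop := ∀ (E n : ℕ) (Tb : List ℕ) (S : List ℝ → Prop) (c : ℕ), Sem E n Tb S →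
  neg E (ones n) (2 ^ 127 * ones n) Tb c = true →
  ∀ y, S y → ∑ f ∈ range 26, (cof c f : ℝ) * y.getD f 0 ≤ 0

def kk (i : ℕ) : ℕ × ℕ × ℕ := KS.getD i (4, 0, 0)

/-- the pointwise inequality coded by `c` -/
def Ineq (lam : ℝ) (c : ℕ) : Prop := ∀ a ∈ Sx 3,
  ((List.range 12).map fun i => (fld c i : ℝ) * ph (kk i) a +
    (fld c (12 + i) : ℝ) * ph (kk i) (chx lam a)).sum + (fld c 24 : ℝ) * chi a ≤ fld c 25

def StmtSym : Prop := ∀ (ln : ℕ) (pool : List ℕ), ln ≤ 2 ^ 19 → PW ln pool 0 4340 0 3867 →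
  ∀ c ∈ pool, Ineq (lamOf ln) c

structure GB where
  dn : ℕ
  gl : ℕ → ℕ
  gu : ℕ → ℕ
  cc : ℕ → ℕ

def GOk (G : ℝ → ℝ) (g : GB) : Prop := ConvexOn ℝ (Set.Icc 0 1) G ∧
  (∀ n : ℕ, n ≤ 2 ^ 32 → G (n / 2 ^ 32) ≤ g.gu n / 2 ^ 128) ∧
  ∀ y : ℕ, y ≤ 2 ^ 32 → ∀ N ∈ Set.Icc (0 : ℝ) 1,
    (g.gl y : ℝ) / 2 ^ 128 * (g.cc y / 2 ^ 32 + g.dn / 2 ^ 10 * (N - y / 2 ^ 32)) ≤ G N

def gReg (d : ℕ) : GB := ⟨d * 2 ^ 10, fun y => y ^ (d - 1) * 2 ^ 128 / 2 ^ (32 * (d - 1)),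
  fun n => n ^ d * 2 ^ 128 / 2 ^ (32 * d) + 1, fun y => y⟩

def tay (a : ℕ) : ℕ := 120 * 2 ^ 240 + 120 * a * 2 ^ 192 + 60 * a ^ 2 * 2 ^ 144 +
  20 * a ^ 3 * 2 ^ 96 + 5 * a ^ 4 * 2 ^ 48 + a ^ 5

def gPoi (dn : ℕ) : GB := ⟨dn, fun y => frc (dn * (2 ^ 32 - y)) fun a =>
    2 ^ 128 * (4320 * 2 ^ 288) ^ 64 / (36 * 2 ^ 48 * tay a + 7 * a ^ 6) ^ 64,
  fun n => frc (dn * (2 ^ 32 - n)) fun a => 2 ^ 128 * (120 * 2 ^ 240) ^ 64 / tay a ^ 64 + 1,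
  fun _ => 2 ^ 32⟩

def StmtG : Prop := (∀ d : ℕ, 1 ≤ d → GOk (fun s => s ^ d) (gReg d)) ∧
  ∀ dn : ℕ, dn ≤ 2 ^ 16 → GOk (fun s => Real.exp (-((dn : ℝ) / 2 ^ 10 * (1 - s)))) (gPoi dn)

/-- lower bound (times `2 ^ 170`) of `a * G N + b * N` on `[lo, hi] / 2 ^ 32` -/
def low (g : GB) (a b : ℤ) (lo hi y : ℕ) : ℤ :=
  if a < 0 then min (a * g.gu lo * 2 ^ 42 + b * lo * 2 ^ 138) (a * g.gu hi * 2 ^ 42 + b * hi * 2 ^ 138)
  else frc (g.gl y) fun t =>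
    min (a * t * (g.cc y * 2 ^ 10 + g.dn * ((lo : ℤ) - y)) + b * lo * 2 ^ 138)
      (a * t * (g.cc y * 2 ^ 10 + g.dn * ((hi : ℤ) - y)) + b * hi * 2 ^ 138)

/-- field `i` of a packed vector of points of `[0, 2 ^ 32]` -/
def pt (z i : ℕ) : ℕ := min ((z >>> (40 * i)) % 2 ^ 40) (2 ^ 32)

/-- inequality `c` refutes the box `lo, hi` (functions of the index) -/
def ref (g : GB) (en c ys : ℕ) (lo hi : List ℕ) : Bool :=
  decide (0 ≤ fld c 24) && decide (fld c 25 * 2 ^ 170 < fld c 24 * en * 2 ^ 160 +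
    ((List.range 12).map fun i =>
      low g (fld c i) (fld c (12 + i)) (lo.getD i 0) (hi.getD i 0) (pt ys i)).sum)

inductive Ct
  | lf (i ys : ℕ)
  | cl (t x i ys : ℕ) (r : Ct)
  | ch (t x i ys : ℕ) (r : Ct)
  | sp (t x : ℕ) (l r : Ct)

def chkC (g : GB) (en : ℕ) (pool : List ℕ) : Ct → List ℕ → List ℕ → Bool
  | .lf i ys, lo, hi => decide (i < pool.length) && frc (pool.getD i 0) fun c => ref g en c ys lo hi
  | .cl t x i ys r, lo, hi => decide (i < pool.length ∧ x ≤ 2 ^ 32) &&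
    ((frc (pool.getD i 0) fun c => fL (hi.set t x) fun h => ref g en c ys lo h) &&
    fL (lo.set t x) fun l => chkC g en pool r l hi)
  | .ch t x i ys r, lo, hi => decide (i < pool.length ∧ x ≤ 2 ^ 32) &&
    ((frc (pool.getD i 0) fun c => fL (lo.set t x) fun l => ref g en c ys l hi) &&
    fL (hi.set t x) fun h => chkC g en pool r lo h)
  | .sp t x l r, lo, hi => decide (x ≤ 2 ^ 32) &&
    ((fL (hi.set t x) fun h => chkC g en pool l lo h) &&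
    fL (lo.set t x) fun l' => chkC g en pool r l' hi)

def StmtCt : Prop := ∀ (lam : ℝ) (G : ℝ → ℝ) (g : GB) (en : ℕ) (pool : List ℕ) (ct : Ct), GOk G g →
  (∀ c ∈ pool, Ineq lam c) →
  chkC g en pool ct (List.replicate 12 0) (List.replicate 12 (2 ^ 32)) = true →
  Big lam G (en / 2 ^ 10)

end Vale.Agent.P154.AF.Ck
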